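import Claimed.Agent.R286.Tst.Base

/-!
# Row 286: abstract tilted-step calculus, part 2 (helper131; 0 sorry)

`RegF F` : `F : E → ℝ` differentiable, `fderiv ℝ F` in `BRegN k` for every `k` (smooth, all derivatives of order `≥ 1` bounded).
`tstZ, tstN, tstE, tstT` : partition function, unnormalised / normalised tilted expectation of the step `x ↦ x + A ω` at mass `m`, the operation `T_m`.

MAIN RESULTS (any real mass `m`, any noise with exponential moments)
* `tstT_regF`        : `RegF F → RegF (T_m F)`;  `tstT_fderiv : D (T_m F) = E_m[D F]`;  `tstT_fderiv_norm_le` (same Lipschitz constant)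
* `tstE_bRegN`       : `BRegN k g → BRegN k (E_m[g])` (vector valued `g`)
* `tstE_hasFDerivAt` : `D E_m[g] = E_m[D g] + m (E_m[D F ⊗ g] - E_m[D F] ⊗ E_m[g])`
* `tstE_eq_density`  : `E_m[g] x = ∫ exp (m (F (x + A ω) - T_m F x)) • g (x + A ω)`
* `tstE_norm_le`, `tstZ_pos`, `tstN_add`, `tstN_smul`.
-/

set_option autoImplicit false
set_option linter.unusedSectionVars false

namespace Claimed.Agent.R286

open MeasureTheory Filter Topology

noncomputable section

universe u v

section step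

variable {E : Type u} [NormedAddCommGroup E] [NormedSpace ℝ E]
variable {G : Type v} [NormedAddCommGroup G] [NormedSpace ℝ G]
variable {Ω : Type*} [MeasurableSpace Ω]

/-- regular continuation: differentiable, all derivatives of order `≥ 1` bounded -/
def RegF (F : E → ℝ) : Prop := Differentiable ℝ F ∧ ∀ k, BRegN k (fderiv ℝ F)

theorem RegF.contDiff_one {F : E → ℝ} (h : RegF F) : ContDiff ℝ 1 F :=
  contDiff_one_iff_fderiv.2 ⟨h.1, (h.2 0).continuous⟩

theorem RegF.lip {F : E → ℝ} (h : RegF F) : ∃ L : ℝ, 0 ≤ L ∧ ∀ x, ‖fderiv ℝ F x‖ ≤ L := by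
  obtain ⟨L, hL⟩ := (h.2 0).bdd
  exact ⟨L, (norm_nonneg _).trans (hL 0), hL⟩

theorem tst_growth {F : E → ℝ} (hd : Differentiable ℝ F) {L : ℝ} (hL : ∀ x, ‖fderiv ℝ F x‖ ≤ L)
    (x y : E) : |F y - F x| ≤ L * ‖y - x‖ := by
  have := Convex.norm_image_sub_le_of_norm_fderiv_le (𝕜 := ℝ) (f := F) (s := Set.univ) (C := L)
    (fun z _ => hd z) (fun z _ => hL z) convex_univ (Set.mem_univ x) (Set.mem_univ y)
  simpa using this

theorem RegF.expGr {F : E → ℝ} (h : RegF F) : ExpGr F := by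
  obtain ⟨L, hL0, hL⟩ := h.lip
  refine ⟨|F 0| + L, 1, fun y => ?_⟩
  have h1 := tst_growth h.1 hL 0 y
  have h2 : |F y| ≤ |F 0| + L * ‖y‖ := by
    have : |F y| ≤ |F y - F 0| + |F 0| := by
      calc |F y| = |(F y - F 0) + F 0| := by ring_nf
        _ ≤ _ := abs_add_le _ _
    simp only [sub_zero] at h1
    linarith
  have h3 : 1 + ‖y‖ ≤ Real.exp (1 * ‖y‖) := by
    rw [one_mul]; linarith [Real.add_one_le_exp ‖y‖]
  have h4 : (1 : ℝ) ≤ Real.exp (1 * ‖y‖) := by linarith [norm_nonneg y]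
  have h5 : ‖y‖ ≤ Real.exp (1 * ‖y‖) := by linarith
  calc ‖F y‖ = |F y| := Real.norm_eq_abs _
    _ ≤ |F 0| * 1 + L * ‖y‖ := by linarith
    _ ≤ |F 0| * Real.exp (1 * ‖y‖) + L * Real.exp (1 * ‖y‖) :=
        add_le_add (mul_le_mul_of_nonneg_left h4 (abs_nonneg _)) (mul_le_mul_of_nonneg_left h5 hL0)
    _ = _ := by ring

/-- the weight `exp (m F)` has exponential growth -/
theorem RegF.exp_le {F : E → ℝ} (h : RegF F) (m : ℝ) :
    ∃ a b : ℝ, 0 ≤ a ∧ 0 ≤ b ∧ ∀ y, Real.exp (m * F y) ≤ a * Real.exp (b * ‖y‖) := by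
  obtain ⟨L, hL0, hL⟩ := h.lip
  refine ⟨Real.exp (|m| * |F 0|), |m| * L, (Real.exp_pos _).le, by positivity, fun y => ?_⟩
  rw [← Real.exp_add]
  refine Real.exp_le_exp.2 ?_
  have h1 := tst_growth h.1 hL 0 y
  simp only [sub_zero] at h1
  have h2 : |F y| ≤ |F 0| + L * ‖y‖ := by
    have : |F y| ≤ |F y - F 0| + |F 0| := by
      calc |F y| = |(F y - F 0) + F 0| := by ring_nf
        _ ≤ _ := abs_add_le _ _
    linarith
  calc m * F y ≤ |m * F y| := le_abs_self _
    _ = |m| * |F y| := abs_mul _ _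
    _ ≤ |m| * (|F 0| + L * ‖y‖) := mul_le_mul_of_nonneg_left h2 (abs_nonneg _)
    _ = _ := by ring

theorem RegF.expGr_weight {F : E → ℝ} (h : RegF F) (m : ℝ) {g : E → G} {C : ℝ}
    (hg : ∀ y, ‖g y‖ ≤ C) : ExpGr (fun y => Real.exp (m * F y) • g y) := by
  obtain ⟨a, b, ha, hb, hab⟩ := h.exp_le m
  refine ⟨a * C, b, fun y => ?_⟩
  have hC : 0 ≤ C := (norm_nonneg _).trans (hg y)
  rw [norm_smul, Real.norm_eq_abs, abs_of_pos (Real.exp_pos _)]
  calc Real.exp (m * F y) * ‖g y‖ ≤ (a * Real.exp (b * ‖y‖)) * C :=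
        mul_le_mul (hab y) (hg y) (norm_nonneg _) (by positivity)
    _ = _ := by ring

/-- unnormalised tilted integral -/
def tstN (μ : Measure Ω) (A : Ω → E) (m : ℝ) (F : E → ℝ) (g : E → G) (x : E) : G :=
  tstP μ A (fun y => Real.exp (m * F y) • g y) x

/-- partition function of the step -/
def tstZ (μ : Measure Ω) (A : Ω → E) (m : ℝ) (F : E → ℝ) (x : E) : ℝ :=
  tstP μ A (fun y => Real.exp (m * F y)) x

/-- the normalised tilted expectation (planted transition) -/
def tstE (μ : Measure Ω) (A : Ω → E) (m : ℝ) (F : E → ℝ) (g : E → G) (x : E) : G :=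
  (tstZ μ A m F x)⁻¹ • tstN μ A m F g x

/-- the operation `T_m` -/
def tstT (μ : Measure Ω) (A : Ω → E) (m : ℝ) (F : E → ℝ) (x : E) : ℝ :=
  if m = 0 then tstP μ A F x else m⁻¹ * Real.log (tstZ μ A m F x)

variable {μ : Measure Ω} {A : Ω → E} {m : ℝ} {F : E → ℝ}

theorem RegF.cont_weight (hF : RegF F) (m : ℝ) : Continuous (fun y => Real.exp (m * F y)) :=
  Real.continuous_exp.comp (continuous_const.mul hF.1.continuous)

theorem tstN_integrable (hN : TstNoise μ A) (hF : RegF F) (m : ℝ) {g : E → G} (hg : BRegN 0 g) (x : E) :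
    Integrable (fun ω => Real.exp (m * F (x + A ω)) • g (x + A ω)) μ := by
  obtain ⟨C, hC⟩ := hg.bdd
  exact hN.integrable (Φ := fun y => Real.exp (m * F y) • g y)
    ((hF.cont_weight m).smul hg.continuous) (hF.expGr_weight m hC) x

theorem tstZ_integrable (hN : TstNoise μ A) (hF : RegF F) (m : ℝ) (x : E) :
    Integrable (fun ω => Real.exp (m * F (x + A ω))) μ := by
  simpa using tstN_integrable hN hF m (bRegN_const 0 (1 : ℝ)) x

theorem tstZ_pos [NeZero μ] (hN : TstNoise μ A) (hF : RegF F) (m : ℝ) (x : E) : 0 < tstZ μ A m F x :=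
  integral_exp_pos (tstZ_integrable hN hF m x)

theorem tstZ_eq_N : tstZ μ A m F = tstN μ A m F (fun _ => (1 : ℝ)) := by
  funext x; simp [tstZ, tstN]

theorem tstN_add (hN : TstNoise μ A) (hF : RegF F) {g₁ g₂ : E → G} (h₁ : BRegN 0 g₁) (h₂ : BRegN 0 g₂)
    (x : E) : tstN μ A m F (fun y => g₁ y + g₂ y) x = tstN μ A m F g₁ x + tstN μ A m F g₂ x := by
  simp only [tstN, tstP, smul_add]
  exact integral_add (tstN_integrable hN hF m h₁ x) (tstN_integrable hN hF m h₂ x)

theorem tstN_smul (c : ℝ) (g : E → G) (x : E) :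
    tstN μ A m F (fun y => c • g y) x = c • tstN μ A m F g x := by
  simp only [tstN, tstP]
  rw [← integral_smul]
  congr 1; funext ω; rw [smul_comm]

theorem tstN_norm_le (hN : TstNoise μ A) (hF : RegF F) {g : E → G} {C : ℝ}
    (hC : ∀ y, ‖g y‖ ≤ C) (x : E) : ‖tstN μ A m F g x‖ ≤ C * tstZ μ A m F x := by
  simp only [tstN, tstZ, tstP]
  rw [← integral_const_mul]
  refine norm_integral_le_of_norm_le ((tstZ_integrable hN hF m x).const_mul C)
    (Eventually.of_forall fun ω => ?_)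
  rw [norm_smul, Real.norm_eq_abs, abs_of_pos (Real.exp_pos _), mul_comm]
  exact mul_le_mul_of_nonneg_right (hC _) (Real.exp_pos _).le

theorem tstE_norm_le [NeZero μ] (hN : TstNoise μ A) (hF : RegF F) {g : E → G} {C : ℝ}
    (hC : ∀ y, ‖g y‖ ≤ C) (x : E) : ‖tstE μ A m F g x‖ ≤ C := by
  have hZ := tstZ_pos hN hF m x
  rw [tstE, norm_smul, norm_inv, Real.norm_eq_abs, abs_of_pos hZ, inv_mul_le_iff₀ hZ, mul_comm]
  exact tstN_norm_le hN hF hC x

theorem tstN_continuous (hN : TstNoise μ A) (hF : RegF F) {g : E → G} (hg : BRegN 0 g) :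
    Continuous (tstN μ A m F g) := by
  obtain ⟨C, hC⟩ := hg.bdd
  exact hN.continuous_P ((hF.cont_weight m).smul hg.continuous) (hF.expGr_weight m hC)

theorem tstZ_continuous (hN : TstNoise μ A) (hF : RegF F) : Continuous (tstZ μ A m F) := by
  rw [tstZ_eq_N]; exact tstN_continuous hN hF (bRegN_const 0 _)

theorem tstE_bRegN_zero [NeZero μ] (hN : TstNoise μ A) (hF : RegF F) {g : E → G} (hg : BRegN 0 g) :
    BRegN 0 (tstE μ A m F g) := by
  obtain ⟨C, hC⟩ := hg.bdd
  refine bRegN_zero_iff.2 ⟨?_, C, tstE_norm_le hN hF hC⟩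
  exact ((tstZ_continuous hN hF).inv₀ fun x => (tstZ_pos hN hF m x).ne').smul
    (tstN_continuous hN hF hg)

/-- derivative of the weighted integrand -/
theorem tst_fderiv_weight (hF : RegF F) (m : ℝ) {g : E → G} (hg : BRegN 1 g) :
    fderiv ℝ (fun y => Real.exp (m * F y) • g y) =
      fun y => Real.exp (m * F y) • (fderiv ℝ g y + m • (fderiv ℝ F y).smulRight (g y)) := by
  funext y
  have hg' : HasFDerivAt g (fderiv ℝ g y) y := ((bRegN_succ_iff.1 hg).2.1 y).hasFDerivAt
  have hF' : HasFDerivAt F (fderiv ℝ F y) y := (hF.1 y).hasFDerivAt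
  have h1 : HasFDerivAt (fun y => Real.exp (m * F y)) (Real.exp (m * F y) • (m • fderiv ℝ F y)) y :=
    (hF'.const_mul m).exp
  have h2 : HasFDerivAt (fun y => Real.exp (m * F y) • g y) _ y := h1.smul hg'
  rw [h2.fderiv]
  ext v
  simp only [add_apply, smul_apply,
    ContinuousLinearMap.smulRight_apply, smul_add, smul_smul, smul_eq_mul]

theorem BRegN.fderiv_zero {g : E → G} (hg : BRegN 1 g) : BRegN 0 (fderiv ℝ g) :=
  (bRegN_succ_iff.1 hg).2.2

theorem tst_aux_bReg (hF : RegF F) (m : ℝ) {k : ℕ} {g : E → G} (hg : BRegN (k + 1) g) :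
    BRegN k (fun y => fderiv ℝ g y + m • (fderiv ℝ F y).smulRight (g y)) :=
  (bRegN_succ_iff.1 hg).2.2.add (((hF.2 k).smulRight (hg.mono (Nat.le_succ k))).const_smul m)

theorem tstN_hasFDerivAt [CompleteSpace G] (hN : TstNoise μ A) (hF : RegF F) (m : ℝ) {g : E → G}
    (hg : BRegN 1 g) (x : E) :
    HasFDerivAt (tstN μ A m F g)
      (tstN μ A m F (fun y => fderiv ℝ g y + m • (fderiv ℝ F y).smulRight (g y)) x) x := by
  obtain ⟨C, hC⟩ := hg.bdd
  obtain ⟨C', hC'⟩ := (tst_aux_bReg hF m hg).bdd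
  have h1 : ContDiff ℝ 1 (fun y => Real.exp (m * F y) • g y) :=
    ((contDiff_const.mul hF.contDiff_one).exp).smul (by exact_mod_cast hg.1)
  have h2 := hN.hasFDerivAt_P h1 (hF.expGr_weight m hC)
    (by rw [tst_fderiv_weight hF m hg]; exact hF.expGr_weight m hC') x
  rw [tst_fderiv_weight hF m hg] at h2
  exact h2

theorem tstZ_hasFDerivAt (hN : TstNoise μ A) (hF : RegF F) (m : ℝ) (x : E) :
    HasFDerivAt (tstZ μ A m F) (m • tstN μ A m F (fderiv ℝ F) x) x := by
  have h := tstN_hasFDerivAt hN hF m (bRegN_const 1 (1 : ℝ)) x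
  rw [← tstZ_eq_N] at h
  have h2 : (fun y => fderiv ℝ (fun _ : E => (1 : ℝ)) y + m • (fderiv ℝ F y).smulRight (1 : ℝ))
      = fun y => m • fderiv ℝ F y := by
    funext y; ext v; simp
  rw [h2, tstN_smul] at h
  exact h

theorem tstE_hasFDerivAt [NeZero μ] [CompleteSpace G] (hN : TstNoise μ A) (hF : RegF F) (m : ℝ)
    {g : E → G} (hg : BRegN 1 g) (x : E) :
    HasFDerivAt (tstE μ A m F g)
      (tstE μ A m F (fderiv ℝ g) x + m • (tstE μ A m F (fun y => (fderiv ℝ F y).smulRight (g y)) x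
        - (tstE μ A m F (fderiv ℝ F) x).smulRight (tstE μ A m F g x))) x := by
  have hZ := tstZ_pos hN hF m x
  have h1 := tstN_hasFDerivAt hN hF m hg x
  have h2 := tstZ_hasFDerivAt hN hF m x
  have h3 : HasFDerivAt (fun y => (tstZ μ A m F y)⁻¹) _ x :=
    (hasDerivAt_inv hZ.ne').comp_hasFDerivAt x h2
  have h4 : HasFDerivAt (fun y => (tstZ μ A m F y)⁻¹ • tstN μ A m F g y) _ x := h3.smul h1
  have h5 : tstN μ A m F (fun y => fderiv ℝ g y + m • (fderiv ℝ F y).smulRight (g y)) x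
      = tstN μ A m F (fderiv ℝ g) x + m • tstN μ A m F (fun y => (fderiv ℝ F y).smulRight (g y)) x := by
    rw [tstN_add hN hF hg.fderiv_zero
      ((((hF.2 0).smulRight (hg.mono (Nat.zero_le 1))).const_smul m)), tstN_smul]
  refine h4.congr_fderiv ?_
  rw [h5]
  ext v
  simp only [tstE, add_apply, smul_apply,
    ContinuousLinearMap.smulRight_apply, sub_apply, smul_add, smul_sub,
    smul_smul, smul_eq_mul]
  rw [add_assoc, sub_eq_add_neg]
  congr 1
  rw [mul_comm m]
  congr 1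
  rw [← neg_smul]
  congr 1
  field_simp

end step

section main

variable {E : Type u} [NormedAddCommGroup E] [NormedSpace ℝ E]
variable {Ω : Type*} [MeasurableSpace Ω]
variable {μ : Measure Ω} {A : Ω → E} {m : ℝ} {F : E → ℝ}

/-- **the tilted step preserves `BRegN k`** -/
theorem tstE_bRegN [NeZero μ] (hN : TstNoise μ A) (hF : RegF F) (m : ℝ) (k : ℕ) :
    ∀ {G : Type u} [NormedAddCommGroup G] [NormedSpace ℝ G] [CompleteSpace G] {g : E → G},
      BRegN k g → BRegN k (tstE μ A m F g) := by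
  induction k with
  | zero => intro G _ _ _ g hg; exact tstE_bRegN_zero hN hF hg
  | succ k ih =>
    intro G _ _ _ g hg
    have hg1 : BRegN 1 g := hg.mono (by omega)
    have hgk : BRegN k g := hg.mono (by omega)
    obtain ⟨C, hC⟩ := hg.bdd
    have hd : ∀ x, HasFDerivAt (tstE μ A m F g) _ x := fun x => tstE_hasFDerivAt hN hF m hg1 x
    refine bRegN_succ_iff.2 ⟨⟨C, tstE_norm_le hN hF hC⟩, fun x => (hd x).differentiableAt, ?_⟩
    have he : fderiv ℝ (tstE μ A m F g) = fun x =>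
        tstE μ A m F (fderiv ℝ g) x + m • (tstE μ A m F (fun y => (fderiv ℝ F y).smulRight (g y)) x
        - (tstE μ A m F (fderiv ℝ F) x).smulRight (tstE μ A m F g x)) := by
      funext x; exact (hd x).fderiv
    rw [he]
    refine (ih (bRegN_succ_iff.1 hg).2.2).add (BRegN.const_smul m ?_)
    exact (ih ((hF.2 k).smulRight hgk)).sub ((ih (hF.2 k)).smulRight (ih hgk))

theorem tstE_zero_mass [IsProbabilityMeasure μ] {G : Type*} [NormedAddCommGroup G] [NormedSpace ℝ G]
    (g : E → G) : tstE μ A 0 F g = tstP μ A g := by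
  funext x; simp [tstE, tstZ, tstN, tstP]

theorem tstT_hasFDerivAt [IsProbabilityMeasure μ] (hN : TstNoise μ A) (hF : RegF F) (m : ℝ) (x : E) :
    HasFDerivAt (tstT μ A m F) (tstE μ A m F (fderiv ℝ F) x) x := by
  by_cases hm : m = 0
  · subst hm
    have h1 : tstT μ A 0 F = tstP μ A F := by funext y; simp [tstT]
    rw [h1, tstE_zero_mass]
    obtain ⟨L, _, hL⟩ := hF.lip
    exact hN.hasFDerivAt_P hF.contDiff_one hF.expGr (expGr_of_bdd hL) x
  · have h1 : tstT μ A m F = fun y => m⁻¹ * Real.log (tstZ μ A m F y) := by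
      funext y; simp [tstT, hm]
    rw [h1]
    have hZ := tstZ_pos hN hF m x
    have h2 := ((tstZ_hasFDerivAt hN hF m x).log hZ.ne').const_mul m⁻¹
    refine h2.congr_fderiv ?_
    rw [tstE, smul_smul, smul_smul]
    congr 1
    field_simp

/-- **`T_m` preserves the class `RegF`**, with the same Lipschitz constant -/
theorem tstT_regF [IsProbabilityMeasure μ] (hN : TstNoise μ A) (hF : RegF F) (m : ℝ) :
    RegF (tstT μ A m F) := by
  have he : fderiv ℝ (tstT μ A m F) = tstE μ A m F (fderiv ℝ F) := by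
    funext x; exact (tstT_hasFDerivAt hN hF m x).fderiv
  refine ⟨fun x => (tstT_hasFDerivAt hN hF m x).differentiableAt, fun k => ?_⟩
  rw [he]
  exact tstE_bRegN hN hF m k (hF.2 k)

theorem tstT_fderiv [IsProbabilityMeasure μ] (hN : TstNoise μ A) (hF : RegF F) (m : ℝ) :
    fderiv ℝ (tstT μ A m F) = tstE μ A m F (fderiv ℝ F) := by
  funext x; exact (tstT_hasFDerivAt hN hF m x).fderiv

theorem tstT_fderiv_norm_le [IsProbabilityMeasure μ] (hN : TstNoise μ A) (hF : RegF F) (m : ℝ) {L : ℝ}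
    (hL : ∀ x, ‖fderiv ℝ F x‖ ≤ L) (x : E) : ‖fderiv ℝ (tstT μ A m F) x‖ ≤ L := by
  rw [tstT_fderiv hN hF m]; exact tstE_norm_le hN hF hL x

/-- the planted transition density -/
theorem tstE_eq_density [IsProbabilityMeasure μ] (hN : TstNoise μ A) (hF : RegF F) (m : ℝ)
    {G : Type*} [NormedAddCommGroup G] [NormedSpace ℝ G] (g : E → G) (x : E) :
    tstE μ A m F g x = ∫ ω, Real.exp (m * (F (x + A ω) - tstT μ A m F x)) • g (x + A ω) ∂μ := by
  have hZ := tstZ_pos hN hF m x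
  have h1 : Real.exp (-(m * tstT μ A m F x)) = (tstZ μ A m F x)⁻¹ := by
    by_cases hm : m = 0
    · subst hm; simp [tstZ, tstP]
    · rw [tstT, if_neg hm, ← mul_assoc, mul_inv_cancel₀ hm, one_mul, Real.exp_neg, Real.exp_log hZ]
  rw [tstE, tstN, tstP, ← integral_smul]
  congr 1; funext ω
  rw [smul_smul, ← h1, ← Real.exp_add]
  congr 2; ring

end main



end

end Claimed.Agent.R286
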