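import Mathlib

/-!
# Row 286: abstract tilted-step calculus, part 1 (helper131; Mathlib only; 0 sorry)

* `BRegN k g`  : `g : E → G` is `C^k` with bounded derivatives of all orders `0..k` (any normed target `G`);
  closure: `mono, add, sub, neg, const_smul, smul, mul, bilin, clm, apply, smulRight, comp_add_right`;
  `bRegN_zero_iff`, `bRegN_succ_iff` (bounded + differentiable + `BRegN k (fderiv ℝ g)`).
* `ExpGr Φ`    : `‖Φ y‖ ≤ a exp (b ‖y‖)`.
* `TstNoise μ A`: `A : Ω → E` a.e. strongly measurable with all exponential moments of `‖A‖`.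
* `tstP μ A Φ x = ∫ Φ (x + A ω) dμ`: `TstNoise.integrable`, `.continuous_P`, `.hasFDerivAt_P` (`D (P Φ) = P (D Φ)`).
-/

set_option autoImplicit false
set_option linter.unusedSectionVars false

namespace Claimed.Agent.R286

open MeasureTheory Filter Topology

noncomputable section

universe u v

section breg

variable {E : Type u} [NormedAddCommGroup E] [NormedSpace ℝ E]
variable {G : Type v} [NormedAddCommGroup G] [NormedSpace ℝ G]
variable {G₁ : Type*} [NormedAddCommGroup G₁] [NormedSpace ℝ G₁]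
variable {G₂ : Type*} [NormedAddCommGroup G₂] [NormedSpace ℝ G₂]

/-- `C^k` with bounded derivatives of all orders `0..k`. -/
def BRegN (k : ℕ) (g : E → G) : Prop :=
  ContDiff ℝ k g ∧ ∀ j ≤ k, ∃ C : ℝ, ∀ x, ‖iteratedFDeriv ℝ j g x‖ ≤ C

theorem BRegN.mono {k j : ℕ} {g : E → G} (h : BRegN k g) (hj : j ≤ k) : BRegN j g :=
  ⟨h.1.of_le (by exact_mod_cast hj), fun i hi => h.2 i (hi.trans hj)⟩

theorem BRegN.bdd {k : ℕ} {g : E → G} (h : BRegN k g) : ∃ C : ℝ, ∀ x, ‖g x‖ ≤ C := by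
  obtain ⟨C, hC⟩ := h.2 0 (Nat.zero_le _)
  exact ⟨C, fun x => by simpa using hC x⟩

theorem BRegN.continuous {k : ℕ} {g : E → G} (h : BRegN k g) : Continuous g := h.1.continuous

theorem bRegN_zero_iff {g : E → G} : BRegN 0 g ↔ Continuous g ∧ ∃ C : ℝ, ∀ x, ‖g x‖ ≤ C := by
  constructor
  · intro h; exact ⟨h.continuous, h.bdd⟩
  · rintro ⟨h1, C, hC⟩
    refine ⟨by simpa using (contDiff_zero (𝕜 := ℝ)).2 h1, fun j hj => ?_⟩
    obtain rfl : j = 0 := by omega
    exact ⟨C, fun x => by simpa using hC x⟩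

theorem bRegN_succ_iff {k : ℕ} {g : E → G} :
    BRegN (k + 1) g ↔ (∃ C : ℝ, ∀ x, ‖g x‖ ≤ C) ∧ Differentiable ℝ g ∧ BRegN k (fderiv ℝ g) := by
  constructor
  · intro h
    have h1 : ContDiff ℝ ((k : WithTop ℕ∞) + 1) g := by exact_mod_cast h.1
    rw [contDiff_succ_iff_fderiv] at h1
    refine ⟨h.bdd, h1.1, h1.2.2, fun j hj => ?_⟩
    obtain ⟨C, hC⟩ := h.2 (j + 1) (by omega)
    exact ⟨C, fun x => by rw [norm_iteratedFDeriv_fderiv]; exact hC x⟩
  · rintro ⟨⟨C0, hC0⟩, hd, hk⟩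
    refine ⟨?_, fun j hj => ?_⟩
    · have : ContDiff ℝ ((k : WithTop ℕ∞) + 1) g := by
        rw [contDiff_succ_iff_fderiv]
        exact ⟨hd, fun h => absurd h (by simp), hk.1⟩
      exact_mod_cast this
    · rcases j with _ | j
      · exact ⟨C0, fun x => by simpa using hC0 x⟩
      · obtain ⟨C, hC⟩ := hk.2 j (by omega)
        exact ⟨C, fun x => by rw [← norm_iteratedFDeriv_fderiv]; exact hC x⟩

theorem bRegN_const (k : ℕ) (c : G) : BRegN k (fun _ : E => c) := by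
  refine ⟨contDiff_const, fun j _ => ⟨‖c‖, fun x => ?_⟩⟩
  rcases j with _ | j
  · simp
  · rw [iteratedFDeriv_const_of_ne (by omega)]; simp

theorem BRegN.bilin {k : ℕ} (B : G₁ →L[ℝ] G₂ →L[ℝ] G) {f : E → G₁} {g : E → G₂}
    (hf : BRegN k f) (hg : BRegN k g) : BRegN k (fun x => B (f x) (g x)) := by
  refine ⟨B.isBoundedBilinearMap.contDiff.comp (hf.1.prodMk hg.1), fun j hj => ?_⟩
  choose! Cf hCf using hf.2
  choose! Cg hCg using hg.2
  refine ⟨‖B‖ * ∑ i ∈ Finset.range (j + 1), (j.choose i : ℝ) * Cf i * Cg (j - i), fun x => ?_⟩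
  refine (B.norm_iteratedFDeriv_le_of_bilinear hf.1 hg.1 x (n := j) (by exact_mod_cast hj)).trans ?_
  refine mul_le_mul_of_nonneg_left (Finset.sum_le_sum fun i hi => ?_) (norm_nonneg B)
  have hi' : i ≤ j := by simpa [Nat.lt_succ_iff] using hi
  have h1 := hCf i (hi'.trans hj) x
  have h2 := hCg (j - i) ((Nat.sub_le _ _).trans hj) x
  have h3 : 0 ≤ Cf i := (norm_nonneg _).trans h1
  gcongr

theorem BRegN.clm {k : ℕ} (L : G₁ →L[ℝ] G) {f : E → G₁} (hf : BRegN k f) :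
    BRegN k (fun x => L (f x)) := by
  refine ⟨L.contDiff.comp hf.1, fun j hj => ?_⟩
  obtain ⟨C, hC⟩ := hf.2 j hj
  refine ⟨‖L‖ * C, fun x => ?_⟩
  have := L.norm_iteratedFDeriv_comp_left (hf.1.contDiffAt (x := x)) (n := j) (by exact_mod_cast hj)
  exact this.trans (mul_le_mul_of_nonneg_left (hC x) (norm_nonneg _))

theorem BRegN.add {k : ℕ} {f g : E → G} (hf : BRegN k f) (hg : BRegN k g) :
    BRegN k (fun x => f x + g x) := by
  refine ⟨hf.1.add hg.1, fun j hj => ?_⟩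
  obtain ⟨C, hC⟩ := hf.2 j hj
  obtain ⟨C', hC'⟩ := hg.2 j hj
  refine ⟨C + C', fun x => ?_⟩
  have : iteratedFDeriv ℝ j (fun x => f x + g x) x = iteratedFDeriv ℝ j f x + iteratedFDeriv ℝ j g x := by
    have := iteratedFDeriv_add_apply (𝕜 := ℝ) (i := j) (x := x) (f := f) (g := g)
      ((hf.1.of_le (by exact_mod_cast hj)).contDiffAt) ((hg.1.of_le (by exact_mod_cast hj)).contDiffAt)
    simpa [Pi.add_def] using this
  rw [this]
  exact (norm_add_le _ _).trans (add_le_add (hC x) (hC' x))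

theorem BRegN.const_smul {k : ℕ} (c : ℝ) {f : E → G} (hf : BRegN k f) :
    BRegN k (fun x => c • f x) := by
  simpa using hf.clm (c • ContinuousLinearMap.id ℝ G)

theorem BRegN.neg {k : ℕ} {f : E → G} (hf : BRegN k f) : BRegN k (fun x => - f x) := by
  simpa using hf.const_smul (-1)

theorem BRegN.sub {k : ℕ} {f g : E → G} (hf : BRegN k f) (hg : BRegN k g) :
    BRegN k (fun x => f x - g x) := by
  simpa [sub_eq_add_neg] using hf.add hg.neg

theorem BRegN.smul {k : ℕ} {f : E → ℝ} {g : E → G} (hf : BRegN k f) (hg : BRegN k g) :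
    BRegN k (fun x => f x • g x) :=
  BRegN.bilin (ContinuousLinearMap.lsmul ℝ ℝ) hf hg

theorem BRegN.mul {k : ℕ} {f g : E → ℝ} (hf : BRegN k f) (hg : BRegN k g) :
    BRegN k (fun x => f x * g x) := hf.smul hg

theorem BRegN.smulRight {k : ℕ} {f : E → (E →L[ℝ] ℝ)} {g : E → G} (hf : BRegN k f) (hg : BRegN k g) :
    BRegN k (fun x => (f x).smulRight (g x)) :=
  BRegN.bilin (ContinuousLinearMap.smulRightL ℝ E G) hf hg

theorem BRegN.comp_add_right {k : ℕ} {f : E → G} (hf : BRegN k f) (a : E) :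
    BRegN k (fun x => f (x + a)) := by
  refine ⟨hf.1.comp (contDiff_id.add contDiff_const), fun j hj => ?_⟩
  obtain ⟨C, hC⟩ := hf.2 j hj
  exact ⟨C, fun x => by rw [iteratedFDeriv_comp_add_right]; exact hC _⟩

theorem BRegN.apply {k : ℕ} {f : E → (G₁ →L[ℝ] G)} (hf : BRegN k f) (v : G₁) :
    BRegN k (fun x => f x v) :=
  hf.clm (ContinuousLinearMap.apply ℝ G v)

end breg

section conv

variable {E : Type u} [NormedAddCommGroup E] [NormedSpace ℝ E]
variable {G : Type v} [NormedAddCommGroup G] [NormedSpace ℝ G]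
variable {Ω : Type*} [MeasurableSpace Ω]

/-- exponential growth -/
def ExpGr (Φ : E → G) : Prop := ∃ a b : ℝ, ∀ y, ‖Φ y‖ ≤ a * Real.exp (b * ‖y‖)

theorem ExpGr.nonneg_form {Φ : E → G} (h : ExpGr Φ) :
    ∃ a b : ℝ, 0 ≤ a ∧ 0 ≤ b ∧ ∀ y, ‖Φ y‖ ≤ a * Real.exp (b * ‖y‖) := by
  obtain ⟨a, b, hab⟩ := h
  refine ⟨|a|, |b|, abs_nonneg _, abs_nonneg _, fun y => (hab y).trans ?_⟩
  have h1 : Real.exp (b * ‖y‖) ≤ Real.exp (|b| * ‖y‖) :=
    Real.exp_le_exp.2 (mul_le_mul_of_nonneg_right (le_abs_self b) (norm_nonneg y))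
  calc a * Real.exp (b * ‖y‖) ≤ |a| * Real.exp (b * ‖y‖) :=
        mul_le_mul_of_nonneg_right (le_abs_self a) (Real.exp_pos _).le
    _ ≤ |a| * Real.exp (|b| * ‖y‖) := mul_le_mul_of_nonneg_left h1 (abs_nonneg a)

theorem expGr_of_bdd {Φ : E → G} {C : ℝ} (h : ∀ y, ‖Φ y‖ ≤ C) : ExpGr Φ :=
  ⟨C, 0, fun y => by simpa using h y⟩

/-- the noise: a.e. strongly measurable with all exponential moments -/
structure TstNoise (μ : Measure Ω) (A : Ω → E) : Prop where
  meas : AEStronglyMeasurable A μ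
  expm : ∀ c : ℝ, Integrable (fun ω => Real.exp (c * ‖A ω‖)) μ

/-- the convolution operator -/
def tstP (μ : Measure Ω) (A : Ω → E) (Φ : E → G) (x : E) : G := ∫ ω, Φ (x + A ω) ∂μ

variable {μ : Measure Ω} {A : Ω → E}

theorem TstNoise.aesm (hN : TstNoise μ A) {Φ : E → G} (hc : Continuous Φ) (x : E) :
    AEStronglyMeasurable (fun ω => Φ (x + A ω)) μ :=
  (hc.comp (continuous_const.add continuous_id)).comp_aestronglyMeasurable hN.meas

theorem tst_loc_bound {Φ : E → G} {a b : ℝ} (ha : 0 ≤ a) (hb : 0 ≤ b)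
    (hab : ∀ y, ‖Φ y‖ ≤ a * Real.exp (b * ‖y‖)) (x₀ x z : E) (hx : x ∈ Metric.ball x₀ 1) :
    ‖Φ (x + z)‖ ≤ a * Real.exp (b * (‖x₀‖ + 1)) * Real.exp (b * ‖z‖) := by
  have h1 : ‖x‖ ≤ ‖x₀‖ + 1 := by
    have : ‖x - x₀‖ < 1 := by simpa [dist_eq_norm] using hx
    calc ‖x‖ = ‖x₀ + (x - x₀)‖ := by congr 1; abel
      _ ≤ ‖x₀‖ + ‖x - x₀‖ := norm_add_le _ _
      _ ≤ ‖x₀‖ + 1 := by linarith
  have h2 : ‖x + z‖ ≤ (‖x₀‖ + 1) + ‖z‖ := (norm_add_le _ _).trans (by linarith)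
  calc ‖Φ (x + z)‖ ≤ a * Real.exp (b * ‖x + z‖) := hab _
    _ ≤ a * Real.exp (b * ((‖x₀‖ + 1) + ‖z‖)) :=
        mul_le_mul_of_nonneg_left (Real.exp_le_exp.2 (mul_le_mul_of_nonneg_left h2 hb)) ha
    _ = a * Real.exp (b * (‖x₀‖ + 1)) * Real.exp (b * ‖z‖) := by
        rw [mul_add, Real.exp_add]; ring

theorem TstNoise.integrable (hN : TstNoise μ A) {Φ : E → G} (hc : Continuous Φ) (hg : ExpGr Φ)
    (x : E) : Integrable (fun ω => Φ (x + A ω)) μ := by
  obtain ⟨a, b, ha, hb, hab⟩ := hg.nonneg_form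
  refine Integrable.mono' ((hN.expm b).const_mul (a * Real.exp (b * (‖x‖ + 1)))) (hN.aesm hc x)
    (Eventually.of_forall fun ω => ?_)
  exact tst_loc_bound ha hb hab x x (A ω) (Metric.mem_ball_self one_pos)

theorem TstNoise.continuous_P (hN : TstNoise μ A) {Φ : E → G} (hc : Continuous Φ) (hg : ExpGr Φ) :
    Continuous (tstP μ A Φ) := by
  obtain ⟨a, b, ha, hb, hab⟩ := hg.nonneg_form
  refine continuous_iff_continuousAt.2 fun x₀ => ?_
  refine continuousAt_of_dominated (bound := fun ω => a * Real.exp (b * (‖x₀‖ + 1)) * Real.exp (b * ‖A ω‖))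
    (Eventually.of_forall fun x => hN.aesm hc x) ?_ ((hN.expm b).const_mul _) ?_
  · filter_upwards [Metric.ball_mem_nhds x₀ one_pos] with x hx
    exact Eventually.of_forall fun ω => tst_loc_bound ha hb hab x₀ x (A ω) hx
  · exact Eventually.of_forall fun ω =>
      (hc.comp (continuous_id.add continuous_const)).continuousAt

theorem TstNoise.hasFDerivAt_P [CompleteSpace G] (hN : TstNoise μ A) {Φ : E → G} (hc : ContDiff ℝ 1 Φ)
    (hg : ExpGr Φ) (hg' : ExpGr (fderiv ℝ Φ)) (x₀ : E) :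
    HasFDerivAt (tstP μ A Φ) (tstP μ A (fderiv ℝ Φ) x₀) x₀ := by
  obtain ⟨a, b, ha, hb, hab⟩ := hg'.nonneg_form
  have hc' : Continuous (fderiv ℝ Φ) := hc.continuous_fderiv (by norm_num)
  refine hasFDerivAt_integral_of_dominated_of_fderiv_le
    (F' := fun x ω => fderiv ℝ Φ (x + A ω))
    (bound := fun ω => a * Real.exp (b * (‖x₀‖ + 1)) * Real.exp (b * ‖A ω‖))
    (Metric.ball_mem_nhds x₀ one_pos)
    (Eventually.of_forall fun x => hN.aesm hc.continuous x) (hN.integrable hc.continuous hg x₀)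
    (hN.aesm hc' x₀) ?_ ((hN.expm b).const_mul _) ?_
  · exact Eventually.of_forall fun ω x hx => tst_loc_bound ha hb hab x₀ x (A ω) hx
  · refine Eventually.of_forall fun ω x _ => ?_
    have h1 : HasFDerivAt Φ (fderiv ℝ Φ (x + A ω)) (x + A ω) :=
      ((hc.differentiable (by norm_num)) _).hasFDerivAt
    exact (hasFDerivAt_comp_add_right (A ω)).2 h1

end conv

end

end Claimed.Agent.R286
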