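import Claimed.Agent.R286.Gh.Reg
import Claimed.Agent.R286.Gk.Taylor

/-!
# Row 286 (S0533), Tst/HeatA : the parameter-derivative ENGINE, part A (abstract noise)      (owner helper273; prefix `tsh_`)      no open leaf

On helper131's tilted step (`Tst/Base`, `Tst/Step`).   No Gaussian here.
* real inequalities `tsh_exp1`, `tsh_exp2`, `tsh_log`
* SUP-NORM PERTURBATION of the tilt (constants do not depend on the noise):
  `tsh_T_nonexp`  `|T G - T F| ≤ K`,   `tsh_T_second`  `|T G - T F - E^F[G - F]| ≤ 2 |m| K² e^{3|m|K}`   if `|G - F| ≤ K`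
  `tsh_E_first`, `tsh_E_second`   the same for the tilted expectation `E^F[g]`
-/

set_option autoImplicit false
set_option linter.unusedSectionVars false

namespace Claimed.Agent.R286

open MeasureTheory Filter Topology

noncomputable section

/-! ### real inequalities -/

theorem tsh_exp1 (x : ℝ) : |Real.exp x - 1| ≤ |x| * Real.exp |x| := by
  have h := Complex.norm_exp_sub_sum_le_norm_mul_exp (x : ℂ) 1
  simp only [Finset.range_one, Finset.sum_singleton, pow_zero, Nat.factorial_zero, Nat.cast_one, div_one, pow_one,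
    Complex.norm_real, Real.norm_eq_abs] at h
  have h2 : ‖Complex.exp (x : ℂ) - 1‖ = |Real.exp x - 1| := by
    rw [← Complex.ofReal_exp, ← Complex.ofReal_one, ← Complex.ofReal_sub, Complex.norm_real, Real.norm_eq_abs]
  rwa [h2] at h

theorem tsh_exp2 (x : ℝ) : |Real.exp x - 1 - x| ≤ x ^ 2 * Real.exp |x| := by
  have h := Complex.norm_exp_sub_sum_le_norm_mul_exp (x : ℂ) 2
  simp only [Finset.sum_range_succ, Finset.range_zero, Finset.sum_empty, pow_zero, Nat.factorial_zero, Nat.cast_one, div_one,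
    pow_one, Nat.factorial_one, zero_add, Complex.norm_real, Real.norm_eq_abs, sq_abs] at h
  have h2 : ‖Complex.exp (x : ℂ) - (1 + (x : ℂ))‖ = |Real.exp x - 1 - x| := by
    rw [← Complex.ofReal_exp, ← Complex.ofReal_one, ← Complex.ofReal_add, ← Complex.ofReal_sub, Complex.norm_real,
      Real.norm_eq_abs, sub_sub]
  rwa [h2] at h

theorem tsh_log {w : ℝ} (hw : 0 < w) : |Real.log w - (w - 1)| ≤ (w - 1) ^ 2 / w := by
  have h1 := Real.log_le_sub_one_of_pos hw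
  have h2 := Real.one_sub_inv_le_log_of_pos hw
  have h3 : (w - 1) ^ 2 / w = (w - 1) - (1 - w⁻¹) := by field_simp
  rw [abs_le, h3]
  constructor <;> linarith

theorem tsh_exp_id1 (δ : ℝ) : (δ * Real.exp δ) ^ 2 = δ ^ 2 * Real.exp (3 * δ) * Real.exp (-δ) := by
  rw [mul_assoc, ← Real.exp_add, mul_pow, ← Real.exp_nat_mul]
  congr 2; push_cast; ring

theorem tsh_exp_id2 (c δ : ℝ) : c * Real.exp δ = c * Real.exp (2 * δ) * Real.exp (-δ) := by
  rw [mul_assoc, ← Real.exp_add]; congr 2; ring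

/-! ### sup-norm perturbation of the tilt -/

section pert

variable {E : Type} [NormedAddCommGroup E] [NormedSpace ℝ E]
variable {Ω : Type*} [MeasurableSpace Ω] {μ : Measure Ω} [IsProbabilityMeasure μ] {A : Ω → E} {m : ℝ} {F G : E → ℝ}

theorem tsh_b0 {g : E → ℝ} (hc : Continuous g) {C : ℝ} (h : ∀ y, |g y| ≤ C) : BRegN 0 g :=
  bRegN_zero_iff.2 ⟨hc, C, h⟩

theorem tsh_E_close (hN : TstNoise μ A) (hF : RegF F) {g h : E → ℝ} (hg : BRegN 0 g) (hh : BRegN 0 h) {c : ℝ}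
    (hc : ∀ y, |g y - h y| ≤ c) (x : E) : |tstE μ A m F g x - tstE μ A m F h x| ≤ c := by
  rw [← tstE_sub hN hF hg hh]
  exact tstE_norm_le (g := fun y => g y - h y) hN hF hc x

/-- the ratio of the two weights -/
def tshW (m : ℝ) (F G : E → ℝ) (y : E) : ℝ := Real.exp (m * (G y - F y))

theorem tsh_W_cont (hF : RegF F) (hG : RegF G) : Continuous (tshW m F G) :=
  Real.continuous_exp.comp (continuous_const.mul (hG.1.continuous.sub hF.1.continuous))

theorem tsh_mul_abs_le {K : ℝ} (hK : ∀ y, |G y - F y| ≤ K) (y : E) : |m * (G y - F y)| ≤ |m| * K := by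
  rw [abs_mul]; exact mul_le_mul_of_nonneg_left (hK y) (abs_nonneg m)

theorem tsh_W_le {K : ℝ} (hK : ∀ y, |G y - F y| ≤ K) (y : E) : tshW m F G y ≤ Real.exp (|m| * K) :=
  Real.exp_le_exp.2 ((le_abs_self _).trans (tsh_mul_abs_le hK y))

theorem tsh_W_ge {K : ℝ} (hK : ∀ y, |G y - F y| ≤ K) (y : E) : Real.exp (-(|m| * K)) ≤ tshW m F G y :=
  Real.exp_le_exp.2 (by have := tsh_mul_abs_le (m := m) hK y; have := neg_abs_le (m * (G y - F y)); linarith)

theorem tsh_W_b0 (hF : RegF F) (hG : RegF G) {K : ℝ} (hK : ∀ y, |G y - F y| ≤ K) : BRegN 0 (tshW m F G) :=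
  tsh_b0 (tsh_W_cont hF hG) fun y => by
    rw [abs_of_pos (by unfold tshW; exact Real.exp_pos _)]; exact tsh_W_le hK y

theorem tsh_D_b0 (hF : RegF F) (hG : RegF G) {K : ℝ} (hK : ∀ y, |G y - F y| ≤ K) : BRegN 0 (fun y => G y - F y) :=
  tsh_b0 (hG.1.continuous.sub hF.1.continuous) hK

theorem tsh_N_change (g : E → ℝ) (x : E) :
    tstN μ A m G g x = tstN μ A m F (fun y => tshW m F G y * g y) x := by
  unfold tstN tstP tshW
  refine integral_congr_ae (Eventually.of_forall fun ω => ?_)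
  simp only [smul_eq_mul]
  rw [← mul_assoc, ← Real.exp_add]
  congr 2; ring

theorem tsh_Z_change (hN : TstNoise μ A) (hF : RegF F) (x : E) :
    tstZ μ A m G x = tstZ μ A m F x * tstE μ A m F (tshW m F G) x := by
  have hZ := (tstZ_pos hN hF m x).ne'
  have h1 : tstZ μ A m G x = tstN μ A m F (tshW m F G) x := by
    rw [tstZ_eq_N, tsh_N_change (F := F)]
    simp
  rw [h1]
  unfold tstE
  rw [smul_eq_mul, ← mul_assoc, mul_inv_cancel₀ hZ, one_mul]

theorem tsh_E_change (hN : TstNoise μ A) (hF : RegF F) (g : E → ℝ) (x : E) :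
    tstE μ A m G g x = tstE μ A m F (fun y => tshW m F G y * g y) x / tstE μ A m F (tshW m F G) x := by
  have hZ := (tstZ_pos hN hF m x).ne'
  conv_lhs => unfold tstE
  rw [tsh_Z_change hN hF, tsh_N_change]
  unfold tstE
  simp only [smul_eq_mul]
  field_simp

/-- the normalised ratio `w = E^F[e^{m(G-F)}]` -/
theorem tsh_w_bounds (hN : TstNoise μ A) (hF : RegF F) (hG : RegF G) {K : ℝ} (hK : ∀ y, |G y - F y| ≤ K) (x : E) :
    Real.exp (-(|m| * K)) ≤ tstE μ A m F (tshW m F G) x ∧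
    |tstE μ A m F (tshW m F G) x - 1| ≤ |m| * K * Real.exp (|m| * K) ∧
    |tstE μ A m F (tshW m F G) x - 1 - m * tstE μ A m F (fun y => G y - F y) x| ≤ (|m| * K) ^ 2 * Real.exp (|m| * K) := by
  have hW := tsh_W_b0 (m := m) hF hG hK
  have hD := tsh_D_b0 hF hG hK
  have hK0 : 0 ≤ K := (abs_nonneg _).trans (hK x)
  have hδ : 0 ≤ |m| * K := mul_nonneg (abs_nonneg m) hK0
  have h1 : ∀ c : ℝ, tstE μ A m F (fun _ => c) x = c := fun c => tstE_const hN hF c x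
  refine ⟨?_, ?_, ?_⟩
  · rw [← h1 (Real.exp (-(|m| * K)))]
    exact tstE_mono hN hF (bRegN_const 0 _) hW (tsh_W_ge hK) x
  · rw [← h1 1]
    refine tsh_E_close hN hF hW (bRegN_const 0 _) (fun y => ?_) x
    refine (tsh_exp1 _).trans ?_
    have := tsh_mul_abs_le (m := m) hK y
    exact mul_le_mul this (Real.exp_le_exp.2 this) (Real.exp_pos _).le hδ
  · have h2 : (1 : ℝ) + m * tstE μ A m F (fun y => G y - F y) x = tstE μ A m F (fun y => 1 + m * (G y - F y)) x := by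
      have := tstE_add (m := m) hN hF (bRegN_const 0 (1 : ℝ)) (hD.const_smul m) x
      simp only [smul_eq_mul] at this
      rw [this, h1]
      congr 1
      exact (tstE_smul m _ x).symm
    rw [sub_sub, h2]
    refine tsh_E_close hN hF hW ((bRegN_const 0 _).add (hD.const_smul m)) (fun y => ?_) x
    have h3 := tsh_exp2 (m * (G y - F y))
    have := tsh_mul_abs_le (m := m) hK y
    rw [← sub_sub]
    refine h3.trans ?_
    rw [← sq_abs]
    exact mul_le_mul (pow_le_pow_left₀ (abs_nonneg _) this 2) (Real.exp_le_exp.2 this) (Real.exp_pos _).le (by positivity)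

theorem tsh_w_le (hN : TstNoise μ A) (hF : RegF F) (hG : RegF G) {K : ℝ} (hK : ∀ y, |G y - F y| ≤ K) (x : E) :
    tstE μ A m F (tshW m F G) x ≤ Real.exp (|m| * K) := by
  rw [← tstE_const (m := m) hN hF (Real.exp (|m| * K)) x]
  exact tstE_mono hN hF (tsh_W_b0 hF hG hK) (bRegN_const 0 _) (tsh_W_le hK) x

theorem tsh_T_sub (hN : TstNoise μ A) (hF : RegF F) (hG : RegF G) {K : ℝ} (hK : ∀ y, |G y - F y| ≤ K) (hm : m ≠ 0) (x : E) :
    tstT μ A m G x - tstT μ A m F x = m⁻¹ * Real.log (tstE μ A m F (tshW m F G) x) := by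
  have hw : 0 < tstE μ A m F (tshW m F G) x := (Real.exp_pos _).trans_le (tsh_w_bounds hN hF hG hK x).1
  unfold tstT
  rw [if_neg hm, if_neg hm, tsh_Z_change hN hF, Real.log_mul (tstZ_pos hN hF m x).ne' hw.ne']
  ring

theorem tsh_T_zero (hN : TstNoise μ A) (hF : RegF F) (hG : RegF G) (x : E) :
    tstT μ A 0 G x - tstT μ A 0 F x = tstE μ A 0 F (fun y => G y - F y) x := by
  rw [tstE_zero_mass]
  unfold tstT tstP
  rw [if_pos rfl, if_pos rfl, integral_sub (hN.integrable hG.1.continuous hG.expGr x) (hN.integrable hF.1.continuous hF.expGr x)]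

/-- **`T_m` is nonexpansive in the sup norm** -/
theorem tsh_T_nonexp (hN : TstNoise μ A) (hF : RegF F) (hG : RegF G) {K : ℝ} (hK : ∀ y, |G y - F y| ≤ K) (x : E) :
    |tstT μ A m G x - tstT μ A m F x| ≤ K := by
  by_cases hm : m = 0
  · subst hm
    rw [tsh_T_zero hN hF hG]
    exact tstE_norm_le (g := fun y => G y - F y) hN hF hK x
  · have hw1 := (tsh_w_bounds (m := m) hN hF hG hK x).1
    have hw2 := tsh_w_le (m := m) hN hF hG hK x
    have hw : 0 < tstE μ A m F (tshW m F G) x := (Real.exp_pos _).trans_le hw1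
    rw [tsh_T_sub hN hF hG hK hm, abs_mul, abs_inv]
    have h1 : |Real.log (tstE μ A m F (tshW m F G) x)| ≤ |m| * K := by
      rw [abs_le]
      exact ⟨(Real.le_log_iff_exp_le hw).2 hw1, (Real.log_le_iff_le_exp hw).2 hw2⟩
    have hm' : 0 < |m| := abs_pos.2 hm
    calc |m|⁻¹ * |Real.log (tstE μ A m F (tshW m F G) x)| ≤ |m|⁻¹ * (|m| * K) :=
          mul_le_mul_of_nonneg_left h1 (inv_nonneg.2 hm'.le)
      _ = K := by field_simp

/-- **second order perturbation of `T_m`** -/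
theorem tsh_T_second (hN : TstNoise μ A) (hF : RegF F) (hG : RegF G) {K : ℝ} (hK : ∀ y, |G y - F y| ≤ K) (x : E) :
    |tstT μ A m G x - tstT μ A m F x - tstE μ A m F (fun y => G y - F y) x| ≤ 2 * |m| * K ^ 2 * Real.exp (3 * (|m| * K)) := by
  have hK0 : 0 ≤ K := (abs_nonneg _).trans (hK x)
  by_cases hm : m = 0
  · subst hm
    rw [tsh_T_zero hN hF hG]
    simp
  · obtain ⟨hw1, hw2, hw3⟩ := tsh_w_bounds (m := m) hN hF hG hK x
    set w := tstE μ A m F (tshW m F G) x with hwdef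
    set e := tstE μ A m F (fun y => G y - F y) x with hedef
    set δ := |m| * K with hδdef
    have hδ : 0 ≤ δ := mul_nonneg (abs_nonneg m) hK0
    have hw : 0 < w := (Real.exp_pos _).trans_le hw1
    have hm' : 0 < |m| := abs_pos.2 hm
    rw [tsh_T_sub hN hF hG hK hm, ← hwdef]
    have h1 : |Real.log w - m * e| ≤ 2 * δ ^ 2 * Real.exp (3 * δ) := by
      have h2 := tsh_log hw
      have h3 : (w - 1) ^ 2 / w ≤ δ ^ 2 * Real.exp (3 * δ) := by
        rw [div_le_iff₀ hw]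
        have h4 : (w - 1) ^ 2 ≤ (δ * Real.exp δ) ^ 2 := by
          rw [← sq_abs (w - 1)]; exact pow_le_pow_left₀ (abs_nonneg _) hw2 2
        have h5 := tsh_exp_id1 δ
        calc (w - 1) ^ 2 ≤ δ ^ 2 * Real.exp (3 * δ) * Real.exp (-δ) := h5 ▸ h4
          _ ≤ δ ^ 2 * Real.exp (3 * δ) * w := mul_le_mul_of_nonneg_left hw1 (by positivity)
      have h6 : δ ^ 2 * Real.exp δ ≤ δ ^ 2 * Real.exp (3 * δ) :=
        mul_le_mul_of_nonneg_left (Real.exp_le_exp.2 (by linarith)) (by positivity)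
      calc |Real.log w - m * e| = |(Real.log w - (w - 1)) + (w - 1 - m * e)| := by congr 1; ring
        _ ≤ |Real.log w - (w - 1)| + |w - 1 - m * e| := abs_add_le _ _
        _ ≤ 2 * δ ^ 2 * Real.exp (3 * δ) := by linarith
    have h7 : m⁻¹ * Real.log w - e = m⁻¹ * (Real.log w - m * e) := by field_simp
    rw [h7, abs_mul, abs_inv]
    calc |m|⁻¹ * |Real.log w - m * e| ≤ |m|⁻¹ * (2 * δ ^ 2 * Real.exp (3 * δ)) :=
          mul_le_mul_of_nonneg_left h1 (inv_nonneg.2 hm'.le)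
      _ = 2 * |m| * K ^ 2 * Real.exp (3 * δ) := by rw [hδdef]; field_simp

/-- first order perturbation of the tilted expectation in the tilt -/
theorem tsh_E_first (hN : TstNoise μ A) (hF : RegF F) (hG : RegF G) {K : ℝ} (hK : ∀ y, |G y - F y| ≤ K)
    {g : E → ℝ} (hg : BRegN 0 g) {Cg : ℝ} (hCg : ∀ y, |g y| ≤ Cg) (x : E) :
    |tstE μ A m G g x - tstE μ A m F g x| ≤ 2 * Cg * (|m| * K) * Real.exp (2 * (|m| * K)) := by
  have hK0 : 0 ≤ K := (abs_nonneg _).trans (hK x)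
  have hCg0 : 0 ≤ Cg := (abs_nonneg _).trans (hCg x)
  obtain ⟨hw1, hw2, -⟩ := tsh_w_bounds (m := m) hN hF hG hK x
  have hW := tsh_W_b0 (m := m) hF hG hK
  rw [tsh_E_change hN hF]
  set w := tstE μ A m F (tshW m F G) x with hwdef
  set e := tstE μ A m F g x with hedef
  set N := tstE μ A m F (fun y => tshW m F G y * g y) x with hNdef
  set δ := |m| * K with hδdef
  have hδ : 0 ≤ δ := mul_nonneg (abs_nonneg m) hK0
  have hw : 0 < w := (Real.exp_pos _).trans_le hw1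
  have he : |e| ≤ Cg := tstE_norm_le (g := g) hN hF hCg x
  have hNe : |N - e| ≤ δ * Real.exp δ * Cg := by
    refine tsh_E_close hN hF (hW.mul hg) hg (fun y => ?_) x
    have h1 : tshW m F G y * g y - g y = (tshW m F G y - 1) * g y := by ring
    rw [h1, abs_mul]
    have h2 := tsh_mul_abs_le (m := m) hK y
    have h3 : |tshW m F G y - 1| ≤ δ * Real.exp δ :=
      (tsh_exp1 _).trans (mul_le_mul h2 (Real.exp_le_exp.2 h2) (Real.exp_pos _).le hδ)
    exact mul_le_mul h3 (hCg y) (abs_nonneg _) (by positivity)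
  have h4 : N / w - e = ((N - e) - (w - 1) * e) / w := by field_simp; ring
  rw [h4, abs_div, abs_of_pos hw, div_le_iff₀ hw]
  have h5 : |(N - e) - (w - 1) * e| ≤ 2 * Cg * δ * Real.exp δ := by
    calc |(N - e) - (w - 1) * e| ≤ |N - e| + |(w - 1) * e| := abs_sub _ _
      _ ≤ δ * Real.exp δ * Cg + δ * Real.exp δ * Cg := by
          rw [abs_mul]; exact add_le_add hNe (mul_le_mul hw2 he (abs_nonneg _) (by positivity))
      _ = 2 * Cg * δ * Real.exp δ := by ring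
  have h6 := tsh_exp_id2 (2 * Cg * δ) δ
  calc |(N - e) - (w - 1) * e| ≤ 2 * Cg * δ * Real.exp (2 * δ) * Real.exp (-δ) := h6 ▸ h5
    _ ≤ 2 * Cg * δ * Real.exp (2 * δ) * w := mul_le_mul_of_nonneg_left hw1 (by positivity)

end pert

/-! ### third order Taylor expansion of a weighted function -/

section taylor

universe v
variable {E : Type} [NormedAddCommGroup E] [NormedSpace ℝ E]
variable {G : Type v} [NormedAddCommGroup G] [NormedSpace ℝ G]
variable {m : ℝ} {F : E → ℝ}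

/-- the first order operator of the weight: `D (e^{mF} g) = e^{mF} (tshAux m F g)` -/
def tshAux (m : ℝ) (F : E → ℝ) (g : E → G) (y : E) : E →L[ℝ] G :=
  fderiv ℝ g y + m • (fderiv ℝ F y).smulRight (g y)

theorem tsh_aux_bReg (hF : RegF F) (m : ℝ) {k : ℕ} {g : E → G} (hg : BRegN (k + 1) g) : BRegN k (tshAux m F g) :=
  tst_aux_bReg hF m hg

theorem tsh_weight_hasFDerivAt (hF : RegF F) (m : ℝ) {g : E → G} (hg : BRegN 1 g) (y : E) :
    HasFDerivAt (fun y => Real.exp (m * F y) • g y) (Real.exp (m * F y) • tshAux m F g y) y := by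
  have hd : Differentiable ℝ (fun y => Real.exp (m * F y) • g y) :=
    (Real.differentiable_exp.comp (hF.1.const_mul m)).smul (hg.1.differentiable (by simp))
  have := (hd y).hasFDerivAt
  rwa [tst_fderiv_weight hF m hg] at this

theorem tsh_lineD (z y : E) (τ : ℝ) : HasDerivAt (fun τ : ℝ => z + τ • y) y τ := by
  simpa using ((hasDerivAt_id τ).smul_const y).const_add z

theorem tsh_line (hF : RegF F) (m : ℝ) {g : E → G} (hg : BRegN 1 g) (z y : E) (τ : ℝ) :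
    HasDerivAt (fun τ : ℝ => Real.exp (m * F (z + τ • y)) • g (z + τ • y))
      (Real.exp (m * F (z + τ • y)) • tshAux m F g (z + τ • y) y) τ := by
  have := (tsh_weight_hasFDerivAt hF m hg (z + τ • y)).comp_hasDerivAt τ (tsh_lineD z y τ)
  simpa [Function.comp_def] using this

theorem tsh_weight_le (hF : RegF F) {L : ℝ} (hL : ∀ x, ‖fderiv ℝ F x‖ ≤ L) (m : ℝ) (z y : E) :
    Real.exp (m * F (z + y)) ≤ Real.exp (m * F z) * Real.exp (|m| * L * ‖y‖) := by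
  rw [← Real.exp_add]
  refine Real.exp_le_exp.2 ?_
  have h1 := tst_growth hF.1 hL z (z + y)
  rw [add_sub_cancel_left] at h1
  have h2 : m * (F (z + y) - F z) ≤ |m| * (L * ‖y‖) :=
    (le_abs_self _).trans (by rw [abs_mul]; exact mul_le_mul_of_nonneg_left h1 (abs_nonneg m))
  nlinarith

theorem tsh_weight_ge (hF : RegF F) {L : ℝ} (hL : ∀ x, ‖fderiv ℝ F x‖ ≤ L) (m : ℝ) (z y : E) :
    Real.exp (m * F z) * Real.exp (-(|m| * L * ‖y‖)) ≤ Real.exp (m * F (z + y)) := by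
  rw [← Real.exp_add]
  refine Real.exp_le_exp.2 ?_
  have h1 := tst_growth hF.1 hL z (z + y)
  rw [add_sub_cancel_left] at h1
  have h2 : -(m * (F (z + y) - F z)) ≤ |m| * (L * ‖y‖) :=
    (neg_le_abs _).trans (by rw [abs_mul]; exact mul_le_mul_of_nonneg_left h1 (abs_nonneg m))
  nlinarith

/-- **third order Taylor expansion** of a function whose gradient is `e^{mF} g₁` -/
theorem tsh_taylor (hF : RegF F) {L : ℝ} (hL : ∀ x, ‖fderiv ℝ F x‖ ≤ L) (m : ℝ) {Ψ : E → ℝ} {g₁ : E → (E →L[ℝ] ℝ)}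
    (hg₁ : BRegN 2 g₁) (hΨ : ∀ y, HasFDerivAt Ψ (Real.exp (m * F y) • g₁ y) y) {C₃ : ℝ}
    (hC₃ : ∀ y, ‖tshAux m F (tshAux m F g₁) y‖ ≤ C₃) (z y : E) :
    |Ψ (z + y) - Ψ z - Real.exp (m * F z) * g₁ z y - Real.exp (m * F z) * tshAux m F g₁ z y y / 2|
      ≤ Real.exp (m * F z) * (C₃ / 6 * ‖y‖ ^ 3 * Real.exp (|m| * L * ‖y‖)) := by
  have hg₂ : BRegN 1 (tshAux m F g₁) := tsh_aux_bReg hF m hg₁
  have hg₃ : BRegN 0 (tshAux m F (tshAux m F g₁)) := tsh_aux_bReg hF m hg₂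
  have hL0 : 0 ≤ L := (norm_nonneg _).trans (hL z)
  set w : ℕ → ℝ → ℝ := fun j τ => match j with
    | 0 => Ψ (z + τ • y)
    | 1 => (Real.exp (m * F (z + τ • y)) • g₁ (z + τ • y)) y
    | 2 => (Real.exp (m * F (z + τ • y)) • tshAux m F g₁ (z + τ • y)) y y
    | _ => (Real.exp (m * F (z + τ • y)) • tshAux m F (tshAux m F g₁) (z + τ • y)) y y y with hw
  have hd0 : ∀ τ, HasDerivAt (w 0) (w 1 τ) τ := fun τ => (hΨ (z + τ • y)).comp_hasDerivAt τ (tsh_lineD z y τ)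
  have hd1 : ∀ τ, HasDerivAt (w 1) (w 2 τ) τ := fun τ => by
    have := (tsh_line hF m (hg₁.mono (by norm_num)) z y τ).clm_apply (hasDerivAt_const τ y)
    simpa [hw] using this
  have hd2 : ∀ τ, HasDerivAt (w 2) (w 3 τ) τ := fun τ => by
    have := ((tsh_line hF m hg₂ z y τ).clm_apply (hasDerivAt_const τ y)).clm_apply (hasDerivAt_const τ y)
    simpa [hw] using this
  have hline : Continuous fun τ : ℝ => z + τ • y := by fun_prop
  have hc3 : Continuous (w 3) := by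
    have h1 : Continuous fun τ : ℝ => Real.exp (m * F (z + τ • y)) • tshAux m F (tshAux m F g₁) (z + τ • y) :=
      ((hF.cont_weight m).comp hline).smul (hg₃.continuous.comp hline)
    exact ((h1.clm_apply continuous_const).clm_apply continuous_const).clm_apply continuous_const
  have hM : ∀ θ ∈ Set.Ioo (0 : ℝ) 1, |w 3 θ| ≤ Real.exp (m * F z) * (C₃ * ‖y‖ ^ 3 * Real.exp (|m| * L * ‖y‖)) := by
    intro θ hθ
    have h1 : w 3 θ = Real.exp (m * F (z + θ • y)) * tshAux m F (tshAux m F g₁) (z + θ • y) y y y := by simp [hw]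
    have hC0 : 0 ≤ C₃ := (norm_nonneg _).trans (hC₃ z)
    have h2 : |tshAux m F (tshAux m F g₁) (z + θ • y) y y y| ≤ C₃ * ‖y‖ ^ 3 := by
      have a1 := (tshAux m F (tshAux m F g₁) (z + θ • y) y y).le_opNorm y
      have a2 := (tshAux m F (tshAux m F g₁) (z + θ • y) y).le_opNorm y
      have a3 := (tshAux m F (tshAux m F g₁) (z + θ • y)).le_opNorm y
      have a4 := hC₃ (z + θ • y)
      have hy := norm_nonneg y
      rw [← Real.norm_eq_abs]
      calc _ ≤ ‖tshAux m F (tshAux m F g₁) (z + θ • y) y y‖ * ‖y‖ := a1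
        _ ≤ (‖tshAux m F (tshAux m F g₁) (z + θ • y) y‖ * ‖y‖) * ‖y‖ := by gcongr
        _ ≤ ((‖tshAux m F (tshAux m F g₁) (z + θ • y)‖ * ‖y‖) * ‖y‖) * ‖y‖ := by gcongr
        _ ≤ ((C₃ * ‖y‖) * ‖y‖) * ‖y‖ := by gcongr
        _ = C₃ * ‖y‖ ^ 3 := by ring
    have h3 : Real.exp (m * F (z + θ • y)) ≤ Real.exp (m * F z) * Real.exp (|m| * L * ‖y‖) := by
      refine (tsh_weight_le hF hL m z (θ • y)).trans ?_
      refine mul_le_mul_of_nonneg_left (Real.exp_le_exp.2 ?_) (Real.exp_pos _).le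
      refine mul_le_mul_of_nonneg_left ?_ (by positivity)
      rw [norm_smul, Real.norm_eq_abs, abs_of_pos hθ.1]
      exact mul_le_of_le_one_left (norm_nonneg y) hθ.2.le
    rw [h1, abs_mul, abs_of_pos (Real.exp_pos _)]
    calc _ ≤ (Real.exp (m * F z) * Real.exp (|m| * L * ‖y‖)) * (C₃ * ‖y‖ ^ 3) :=
          mul_le_mul h3 h2 (abs_nonneg _) (by positivity)
      _ = _ := by ring
  have key := ght_taylor_bound_one w 2
    (fun j hj => by
      interval_cases j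
      · exact fun τ _ => (hd0 τ).continuousAt.continuousWithinAt
      · exact fun τ _ => (hd1 τ).continuousAt.continuousWithinAt
      · exact fun τ _ => (hd2 τ).continuousAt.continuousWithinAt
      · exact hc3.continuousOn)
    (fun j hj θ _ => by
      interval_cases j
      · exact hd0 θ
      · exact hd1 θ
      · exact hd2 θ) hM
  have e1 : w 0 1 - ∑ j ∈ Finset.range (2 + 1), w j 0 / (j.factorial : ℝ)
      = Ψ (z + y) - Ψ z - Real.exp (m * F z) * g₁ z y - Real.exp (m * F z) * tshAux m F g₁ z y y / 2 := by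
    simp [hw, Finset.sum_range_succ, Nat.factorial]
    ring
  rw [e1] at key
  refine key.trans (le_of_eq ?_)
  simp [Nat.factorial]
  ring

end taylor

/-! ### small noise: integrated Taylor expansion -/

section small

variable {E : Type} [NormedAddCommGroup E] [NormedSpace ℝ E]
variable {Ω : Type*} [MeasurableSpace Ω] {μ : Measure Ω} [IsProbabilityMeasure μ] {N : Ω → E} {m : ℝ} {F : E → ℝ}

theorem TstNoise.tsh_smul (hN : TstNoise μ N) (ε : ℝ) : TstNoise μ (fun ω => ε • N ω) :=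
  ⟨hN.meas.const_smul ε, fun c => by simpa [norm_smul, mul_assoc] using hN.expm (c * |ε|)⟩

theorem tsh_int_pow (hN : TstNoise μ N) (k : ℕ) (c : ℝ) : Integrable (fun ω => ‖N ω‖ ^ k * Real.exp (c * ‖N ω‖)) μ := by
  refine Integrable.mono' ((hN.expm (c + 1)).const_mul (k.factorial : ℝ)) ?_ (Eventually.of_forall fun ω => ?_)
  · exact (hN.meas.norm.pow k).mul (Real.continuous_exp.comp_aestronglyMeasurable (hN.meas.norm.const_mul c))
  · have h1 := Real.pow_div_factorial_le_exp (x := ‖N ω‖) (norm_nonneg (N ω)) k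
    have hk : (0 : ℝ) < k.factorial := by exact_mod_cast k.factorial_pos
    rw [div_le_iff₀ hk] at h1
    rw [Real.norm_eq_abs, abs_of_nonneg (by positivity)]
    calc ‖N ω‖ ^ k * Real.exp (c * ‖N ω‖) ≤ (Real.exp ‖N ω‖ * k.factorial) * Real.exp (c * ‖N ω‖) := by gcongr
      _ = k.factorial * Real.exp ((c + 1) * ‖N ω‖) := by
          rw [mul_comm (Real.exp ‖N ω‖), mul_assoc, ← Real.exp_add]; congr 2; ring

theorem tsh_int_pow' (hN : TstNoise μ N) (k : ℕ) : Integrable (fun ω => ‖N ω‖ ^ k) μ := by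
  simpa using tsh_int_pow hN k 0

theorem tsh_int_lin (hN : TstNoise μ N) (ℓ : E →L[ℝ] ℝ) : Integrable (fun ω => ℓ (N ω)) μ := by
  refine Integrable.mono' ((tsh_int_pow' hN 1).const_mul ‖ℓ‖) (ℓ.continuous.comp_aestronglyMeasurable hN.meas)
    (Eventually.of_forall fun ω => ?_)
  simpa using ℓ.le_opNorm (N ω)

theorem tsh_quad_le (b : E →L[ℝ] E →L[ℝ] ℝ) (y : E) : |b y y| ≤ ‖b‖ * ‖y‖ ^ 2 := by
  rw [← Real.norm_eq_abs]
  calc ‖b y y‖ ≤ ‖b y‖ * ‖y‖ := (b y).le_opNorm y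
    _ ≤ (‖b‖ * ‖y‖) * ‖y‖ := by gcongr; exact b.le_opNorm y
    _ = ‖b‖ * ‖y‖ ^ 2 := by ring

theorem tsh_int_quad (hN : TstNoise μ N) (b : E →L[ℝ] E →L[ℝ] ℝ) : Integrable (fun ω => b (N ω) (N ω)) μ := by
  have hc : Continuous fun y : E => b y y := b.continuous.clm_apply continuous_id
  exact Integrable.mono' ((tsh_int_pow' hN 2).const_mul ‖b‖) (hc.comp_aestronglyMeasurable hN.meas)
    (Eventually.of_forall fun ω => tsh_quad_le b (N ω))

/-- the third moment constant -/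
def tshM3 (μ : Measure Ω) (N : Ω → E) (c : ℝ) : ℝ := ∫ ω, ‖N ω‖ ^ 3 * Real.exp (c * ‖N ω‖) ∂μ

theorem tsh_M3_nonneg (c : ℝ) : 0 ≤ tshM3 μ N c := integral_nonneg fun ω => by positivity

/-- **integrated small-noise expansion** of a function whose gradient is `e^{mF} g₁`; the noise is centred -/
theorem tsh_small_int (hN : TstNoise μ N) (h0 : ∀ ℓ : E →L[ℝ] ℝ, ∫ ω, ℓ (N ω) ∂μ = 0) (hF : RegF F) {L : ℝ}
    (hL : ∀ x, ‖fderiv ℝ F x‖ ≤ L) (m : ℝ) {Ψ : E → ℝ} {g₁ : E → (E →L[ℝ] ℝ)}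
    (hg₁ : BRegN 2 g₁) (hΨ : ∀ y, HasFDerivAt Ψ (Real.exp (m * F y) • g₁ y) y) {C₃ : ℝ}
    (hC₃ : ∀ y, ‖tshAux m F (tshAux m F g₁) y‖ ≤ C₃) {ε : ℝ} (hε0 : 0 ≤ ε) (hε1 : ε ≤ 1) (z : E) :
    |∫ ω, Ψ (z + ε • N ω) ∂μ - Ψ z - Real.exp (m * F z) * (ε ^ 2 / 2 * ∫ ω, tshAux m F g₁ z (N ω) (N ω) ∂μ)|
      ≤ Real.exp (m * F z) * (C₃ / 6 * tshM3 μ N (|m| * L) * ε ^ 3) := by
  have hL0 : 0 ≤ L := (norm_nonneg _).trans (hL z)
  have hC0 : 0 ≤ C₃ := (norm_nonneg _).trans (hC₃ z)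
  have hΨc : Continuous Ψ := continuous_iff_continuousAt.2 fun y => (hΨ y).continuousAt
  set e := Real.exp (m * F z) with he
  set c := |m| * L with hc
  have hc0 : 0 ≤ c := by positivity
  have hlin : Integrable (fun ω => e * (ε * g₁ z (N ω))) μ := ((tsh_int_lin hN (g₁ z)).const_mul ε).const_mul e
  have hquad : Integrable (fun ω => e * (ε ^ 2 / 2 * tshAux m F g₁ z (N ω) (N ω))) μ :=
    ((tsh_int_quad hN (tshAux m F g₁ z)).const_mul _).const_mul e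
  have hB : Integrable (fun ω => e * (C₃ / 6 * ε ^ 3) * (‖N ω‖ ^ 3 * Real.exp (c * ‖N ω‖))) μ :=
    (tsh_int_pow hN 3 c).const_mul _
  have hmain : Integrable (fun ω => Ψ z + e * (ε * g₁ z (N ω)) + e * (ε ^ 2 / 2 * tshAux m F g₁ z (N ω) (N ω))) μ :=
    ((integrable_const _).add hlin).add hquad
  have hbound : ∀ ω, |Ψ (z + ε • N ω) - (Ψ z + e * (ε * g₁ z (N ω)) + e * (ε ^ 2 / 2 * tshAux m F g₁ z (N ω) (N ω)))|
      ≤ e * (C₃ / 6 * ε ^ 3) * (‖N ω‖ ^ 3 * Real.exp (c * ‖N ω‖)) := by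
    intro ω
    have h1 := tsh_taylor hF hL m hg₁ hΨ hC₃ z (ε • N ω)
    simp only [map_smul, smul_eq_mul, _root_.smul_apply, norm_smul, Real.norm_eq_abs, abs_of_nonneg hε0] at h1
    have h2 : Ψ (z + ε • N ω) - (Ψ z + e * (ε * g₁ z (N ω)) + e * (ε ^ 2 / 2 * tshAux m F g₁ z (N ω) (N ω)))
        = Ψ (z + ε • N ω) - Ψ z - e * (ε * g₁ z (N ω)) - e * (ε * (ε * tshAux m F g₁ z (N ω) (N ω))) / 2 := by ring
    rw [h2]
    refine h1.trans ?_
    have h3 : Real.exp (c * (ε * ‖N ω‖)) ≤ Real.exp (c * ‖N ω‖) :=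
      Real.exp_le_exp.2 (mul_le_mul_of_nonneg_left (mul_le_of_le_one_left (norm_nonneg _) hε1) hc0)
    calc e * (C₃ / 6 * (ε * ‖N ω‖) ^ 3 * Real.exp (c * (ε * ‖N ω‖)))
        ≤ e * (C₃ / 6 * (ε * ‖N ω‖) ^ 3 * Real.exp (c * ‖N ω‖)) := by gcongr
      _ = _ := by ring
  have hR : Integrable (fun ω => Ψ (z + ε • N ω) - (Ψ z + e * (ε * g₁ z (N ω)) + e * (ε ^ 2 / 2 * tshAux m F g₁ z (N ω) (N ω)))) μ :=
    Integrable.mono' hB (((hN.tsh_smul ε).aesm hΨc z).sub hmain.aestronglyMeasurable) (Eventually.of_forall hbound)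
  have hΨi : Integrable (fun ω => Ψ (z + ε • N ω)) μ := by
    have := hR.add hmain
    refine this.congr (Eventually.of_forall fun ω => ?_)
    simp
  have e1 : ∫ ω, (Ψ (z + ε • N ω) - (Ψ z + e * (ε * g₁ z (N ω)) + e * (ε ^ 2 / 2 * tshAux m F g₁ z (N ω) (N ω)))) ∂μ
      = ∫ ω, Ψ (z + ε • N ω) ∂μ - Ψ z - e * (ε ^ 2 / 2 * ∫ ω, tshAux m F g₁ z (N ω) (N ω) ∂μ) := by
    have hcl : Integrable (fun ω => Ψ z + e * (ε * g₁ z (N ω))) μ := (integrable_const _).add hlin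
    rw [integral_sub hΨi hmain, integral_add hcl hquad, integral_add (integrable_const _) hlin,
      integral_const_mul, integral_const_mul, integral_const_mul, integral_const_mul, h0]
    simp
    ring
  rw [← e1]
  calc _ ≤ ∫ ω, e * (C₃ / 6 * ε ^ 3) * (‖N ω‖ ^ 3 * Real.exp (c * ‖N ω‖)) ∂μ := by
        rw [← Real.norm_eq_abs]
        exact norm_integral_le_of_norm_le hB (Eventually.of_forall hbound)
    _ = _ := by rw [integral_const_mul]; unfold tshM3; ring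

end small

/-! ### the second order operator on the diagonal -/

section aux2
variable {E : Type} [NormedAddCommGroup E] [NormedSpace ℝ E] {m : ℝ} {F : E → ℝ}

theorem tsh_aux_apply (m : ℝ) (F : E → ℝ) (g : E → ℝ) (z v : E) :
    tshAux m F g z v = fderiv ℝ g z v + m * (fderiv ℝ F z v * g z) := by
  simp [tshAux]

theorem tsh_hasFDerivAt_apply {c : E → (E →L[ℝ] ℝ)} {z : E} (hc : DifferentiableAt ℝ c z) (v : E) :
    HasFDerivAt (fun y => c y v) ((fderiv ℝ c z).flip v) z := by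
  simpa using hc.hasFDerivAt.clm_apply (hasFDerivAt_const v z)

theorem BRegN.tsh_diff {G : Type*} [NormedAddCommGroup G] [NormedSpace ℝ G] {k : ℕ} {g : E → G} (hg : BRegN (k + 1) g) :
    Differentiable ℝ g := hg.1.differentiable (by simp)

theorem BRegN.tsh_fderiv {G : Type*} [NormedAddCommGroup G] [NormedSpace ℝ G] {k : ℕ} {g : E → G} (hg : BRegN (k + 1) g) :
    BRegN k (fderiv ℝ g) := (bRegN_succ_iff.1 hg).2.2

theorem tsh_aux2 (hF : RegF F) (m : ℝ) {g : E → ℝ} (hg : BRegN 2 g) (z v : E) :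
    tshAux m F (tshAux m F g) z v v = fderiv ℝ (fderiv ℝ g) z v v + 2 * m * (fderiv ℝ F z v * fderiv ℝ g z v)
      + g z * (m * fderiv ℝ (fderiv ℝ F) z v v + m ^ 2 * (fderiv ℝ F z v) ^ 2) := by
  have hA : BRegN 1 (tshAux m F g) := tsh_aux_bReg hF m hg
  have h1 := tsh_hasFDerivAt_apply (hA.tsh_diff z) v
  have h2 : HasFDerivAt (fun y => fderiv ℝ g y v) ((fderiv ℝ (fderiv ℝ g) z).flip v) z :=
    tsh_hasFDerivAt_apply (hg.tsh_fderiv.tsh_diff z) v
  have h3 : HasFDerivAt (fun y => fderiv ℝ F y v) ((fderiv ℝ (fderiv ℝ F) z).flip v) z :=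
    tsh_hasFDerivAt_apply ((hF.2 1).tsh_diff z) v
  have h4 : HasFDerivAt g (fderiv ℝ g z) z := (hg.tsh_diff z).hasFDerivAt
  have h5 := h2.add ((h3.mul h4).const_mul m)
  have h6 : (fun y => tshAux m F g y v) = fun y => fderiv ℝ g y v + m * (fderiv ℝ F y v * g y) :=
    funext fun y => tsh_aux_apply m F g y v
  rw [h6] at h1
  have h7 := congrArg (fun T : E →L[ℝ] ℝ => T v) (h1.unique h5)
  simp only [ContinuousLinearMap.flip_apply, _root_.add_apply, _root_.smul_apply, smul_eq_mul] at h7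
  have h8 : tshAux m F (tshAux m F g) z v v = fderiv ℝ (tshAux m F g) z v v + m * (fderiv ℝ F z v * tshAux m F g z v) := by
    show (fderiv ℝ (tshAux m F g) z + m • (fderiv ℝ F z).smulRight (tshAux m F g z)) v v = _
    simp
  rw [h8, h7, tsh_aux_apply]
  ring
end aux2

section small2

variable {E : Type} [NormedAddCommGroup E] [NormedSpace ℝ E]
variable {Ω : Type*} [MeasurableSpace Ω] {μ : Measure Ω} [IsProbabilityMeasure μ] {N : Ω → E} {m : ℝ} {F : E → ℝ}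

/-- the heat term of the tilt: `E[D²F(z)[N,N] + m (DF(z) N)²]` -/
def tshH (μ : Measure Ω) (N : Ω → E) (m : ℝ) (F : E → ℝ) (z : E) : ℝ :=
  ∫ ω, (fderiv ℝ (fderiv ℝ F) z (N ω) (N ω) + m * (fderiv ℝ F z (N ω)) ^ 2) ∂μ

/-- the heat term of an observable: `E[D²g(z)[N,N] + 2 m DF(z)N Dg(z)N]` -/
def tshK (μ : Measure Ω) (N : Ω → E) (m : ℝ) (F : E → ℝ) (g : E → ℝ) (z : E) : ℝ :=
  ∫ ω, (fderiv ℝ (fderiv ℝ g) z (N ω) (N ω) + 2 * m * (fderiv ℝ F z (N ω) * fderiv ℝ g z (N ω))) ∂μ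

theorem tsh_int_two (hN : TstNoise μ N) (a b : E →L[ℝ] ℝ) : Integrable (fun ω => a (N ω) * b (N ω)) μ := by
  have := tsh_int_quad hN (a.smulRight b)
  simpa using this

theorem tsh_two_le (a b : E →L[ℝ] ℝ) (y : E) : |a y * b y| ≤ ‖a‖ * ‖b‖ * ‖y‖ ^ 2 := by
  rw [abs_mul]
  calc |a y| * |b y| ≤ (‖a‖ * ‖y‖) * (‖b‖ * ‖y‖) :=
        mul_le_mul (a.le_opNorm y) (b.le_opNorm y) (abs_nonneg _) (by positivity)
    _ = _ := by ring

theorem tsh_K_bdd (hN : TstNoise μ N) (hF : RegF F) (m : ℝ) {g : E → ℝ} (hg : BRegN 2 g) :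
    ∃ C : ℝ, ∀ z, |tshK μ N m F g z| ≤ C := by
  obtain ⟨L, -, hL⟩ := hF.lip
  obtain ⟨C1, hC1⟩ := hg.tsh_fderiv.bdd
  obtain ⟨C2, hC2⟩ := hg.tsh_fderiv.tsh_fderiv.bdd
  refine ⟨(C2 + 2 * |m| * (L * C1)) * ∫ ω, ‖N ω‖ ^ 2 ∂μ, fun z => ?_⟩
  unfold tshK
  rw [← integral_const_mul, ← Real.norm_eq_abs]
  refine norm_integral_le_of_norm_le ((tsh_int_pow' hN 2).const_mul _) (Eventually.of_forall fun ω => ?_)
  rw [Real.norm_eq_abs]
  have h1 := tsh_quad_le (fderiv ℝ (fderiv ℝ g) z) (N ω)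
  have h2 := tsh_two_le (fderiv ℝ F z) (fderiv ℝ g z) (N ω)
  have h3 : ‖fderiv ℝ (fderiv ℝ g) z‖ * ‖N ω‖ ^ 2 ≤ C2 * ‖N ω‖ ^ 2 := by gcongr; exact hC2 z
  have h4 : ‖fderiv ℝ F z‖ * ‖fderiv ℝ g z‖ * ‖N ω‖ ^ 2 ≤ L * C1 * ‖N ω‖ ^ 2 := by
    gcongr
    · exact (norm_nonneg _).trans (hL z)
    · exact hL z
    · exact hC1 z
  calc _ ≤ |fderiv ℝ (fderiv ℝ g) z (N ω) (N ω)| + |2 * m * (fderiv ℝ F z (N ω) * fderiv ℝ g z (N ω))| := abs_add_le _ _
    _ = |fderiv ℝ (fderiv ℝ g) z (N ω) (N ω)| + 2 * |m| * |fderiv ℝ F z (N ω) * fderiv ℝ g z (N ω)| := by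
        rw [abs_mul, abs_mul]; simp
    _ ≤ C2 * ‖N ω‖ ^ 2 + 2 * |m| * (L * C1 * ‖N ω‖ ^ 2) := by
        have : 0 ≤ 2 * |m| := by positivity
        exact add_le_add (h1.trans h3) (mul_le_mul_of_nonneg_left (h2.trans h4) this)
    _ = _ := by ring

theorem tsh_H_bdd (hN : TstNoise μ N) (hF : RegF F) (m : ℝ) : ∃ C : ℝ, ∀ z, |tshH μ N m F z| ≤ C := by
  obtain ⟨L, -, hL⟩ := hF.lip
  obtain ⟨C2, hC2⟩ := (hF.2 1).tsh_fderiv.bdd
  refine ⟨(C2 + |m| * (L * L)) * ∫ ω, ‖N ω‖ ^ 2 ∂μ, fun z => ?_⟩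
  unfold tshH
  rw [← integral_const_mul, ← Real.norm_eq_abs]
  refine norm_integral_le_of_norm_le ((tsh_int_pow' hN 2).const_mul _) (Eventually.of_forall fun ω => ?_)
  rw [Real.norm_eq_abs]
  have h1 := tsh_quad_le (fderiv ℝ (fderiv ℝ F) z) (N ω)
  have h2 := tsh_two_le (fderiv ℝ F z) (fderiv ℝ F z) (N ω)
  have h3 : ‖fderiv ℝ (fderiv ℝ F) z‖ * ‖N ω‖ ^ 2 ≤ C2 * ‖N ω‖ ^ 2 := by gcongr; exact hC2 z
  have h4 : ‖fderiv ℝ F z‖ * ‖fderiv ℝ F z‖ * ‖N ω‖ ^ 2 ≤ L * L * ‖N ω‖ ^ 2 := by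
    gcongr
    · exact (norm_nonneg _).trans (hL z)
    · exact hL z
    · exact hL z
  calc _ ≤ |fderiv ℝ (fderiv ℝ F) z (N ω) (N ω)| + |m * (fderiv ℝ F z (N ω)) ^ 2| := abs_add_le _ _
    _ = |fderiv ℝ (fderiv ℝ F) z (N ω) (N ω)| + |m| * |fderiv ℝ F z (N ω) * fderiv ℝ F z (N ω)| := by
        rw [abs_mul, sq]
    _ ≤ C2 * ‖N ω‖ ^ 2 + |m| * (L * L * ‖N ω‖ ^ 2) :=
        add_le_add (h1.trans h3) (mul_le_mul_of_nonneg_left (h2.trans h4) (abs_nonneg m))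
    _ = _ := by ring

/-- the integrated second order operator -/
theorem tsh_aux2_int (hN : TstNoise μ N) (hF : RegF F) (m : ℝ) {g : E → ℝ} (hg : BRegN 2 g) (z : E) :
    ∫ ω, tshAux m F (tshAux m F g) z (N ω) (N ω) ∂μ = tshK μ N m F g z + g z * (m * tshH μ N m F z) := by
  unfold tshK tshH
  rw [← integral_const_mul, ← integral_const_mul, ← integral_add]
  · refine integral_congr_ae (Eventually.of_forall fun ω => ?_)
    simp only
    rw [tsh_aux2 hF m hg]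
    ring
  · exact (tsh_int_quad hN _).add ((tsh_int_two hN _ _).const_mul _)
  · refine (((tsh_int_quad hN _).add (((tsh_int_two hN (fderiv ℝ F z) (fderiv ℝ F z)).const_mul m).congr
      (Eventually.of_forall fun ω => ?_))).const_mul m).const_mul (g z)
    simp only; ring

/-- small-noise expansion of the unnormalised tilted integral -/
theorem tsh_N_small (hN : TstNoise μ N) (h0 : ∀ ℓ : E →L[ℝ] ℝ, ∫ ω, ℓ (N ω) ∂μ = 0) (hF : RegF F) (m : ℝ)
    {g : E → ℝ} (hg : BRegN 3 g) :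
    ∃ C : ℝ, 0 ≤ C ∧ ∀ ε : ℝ, 0 ≤ ε → ε ≤ 1 → ∀ z,
      |tstN μ (fun ω => ε • N ω) m F g z
        - Real.exp (m * F z) * (g z + ε ^ 2 / 2 * (tshK μ N m F g z + g z * (m * tshH μ N m F z)))|
        ≤ Real.exp (m * F z) * (C * ε ^ 3) := by
  obtain ⟨L, hL0, hL⟩ := hF.lip
  have hg1 : BRegN 2 (tshAux m F g) := tsh_aux_bReg hF m hg
  have hg3 : BRegN 0 (tshAux m F (tshAux m F (tshAux m F g))) := tsh_aux_bReg hF m (tsh_aux_bReg hF m hg1)
  obtain ⟨C3, hC3⟩ := hg3.bdd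
  have hC0 : ∀ z : E, 0 ≤ C3 := fun z => (norm_nonneg _).trans (hC3 z)
  refine ⟨|C3| / 6 * tshM3 μ N (|m| * L), mul_nonneg (by positivity) (tsh_M3_nonneg _), fun ε h0ε h1ε z => ?_⟩
  have key := tsh_small_int hN h0 hF hL m hg1 (fun y => tsh_weight_hasFDerivAt hF m (hg.mono (by norm_num)) y) hC3 h0ε h1ε z
  rw [tsh_aux2_int hN hF m (hg.mono (by norm_num))] at key
  rw [abs_of_nonneg (hC0 z)]
  have e1 : tstN μ (fun ω => ε • N ω) m F g z = ∫ ω, Real.exp (m * F (z + ε • N ω)) • g (z + ε • N ω) ∂μ := rfl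
  rw [e1]
  simp only [smul_eq_mul] at key ⊢
  convert key using 2
  ring

theorem tsh_quot {n ζ g k a x Rn Rz w0 : ℝ} (hw0 : 0 < w0) (hζ : w0 ≤ ζ) (hn : |n - (g + x * (k + g * a))| ≤ Rn)
    (hz : |ζ - (1 + x * a)| ≤ Rz) : |n / ζ - g - x * k| ≤ (Rn + Rz * |g + x * k| + x ^ 2 * |a * k|) / w0 := by
  have hζ0 : 0 < ζ := hw0.trans_le hζ
  have e1 : n / ζ - g - x * k = ((n - (g + x * (k + g * a))) - (ζ - (1 + x * a)) * (g + x * k) - x ^ 2 * (a * k)) / ζ := by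
    field_simp; ring
  have h1 : |(n - (g + x * (k + g * a))) - (ζ - (1 + x * a)) * (g + x * k) - x ^ 2 * (a * k)|
      ≤ Rn + Rz * |g + x * k| + x ^ 2 * |a * k| := by
    calc _ ≤ |(n - (g + x * (k + g * a))) - (ζ - (1 + x * a)) * (g + x * k)| + |x ^ 2 * (a * k)| := abs_sub _ _
      _ ≤ (|n - (g + x * (k + g * a))| + |(ζ - (1 + x * a)) * (g + x * k)|) + |x ^ 2 * (a * k)| := by
          gcongr; exact abs_sub _ _
      _ = |n - (g + x * (k + g * a))| + |ζ - (1 + x * a)| * |g + x * k| + x ^ 2 * |a * k| := by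
          rw [abs_mul, abs_mul (x ^ 2), abs_of_nonneg (sq_nonneg x)]
      _ ≤ _ := by gcongr
  rw [e1, abs_div, abs_of_pos hζ0]
  have h2 : 0 ≤ Rn + Rz * |g + x * k| + x ^ 2 * |a * k| := (abs_nonneg _).trans h1
  calc _ ≤ (Rn + Rz * |g + x * k| + x ^ 2 * |a * k|) / ζ := by gcongr
    _ ≤ _ := by gcongr

/-- the lower bound constant of the normalised partition function -/
def tshW0 (μ : Measure Ω) (N : Ω → E) (c : ℝ) : ℝ := ∫ ω, Real.exp (-(c * ‖N ω‖)) ∂μ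

theorem tsh_W0_int (hN : TstNoise μ N) (c : ℝ) : Integrable (fun ω => Real.exp (-(c * ‖N ω‖))) μ := by
  simpa using hN.expm (-c)

theorem tsh_W0_pos (hN : TstNoise μ N) (c : ℝ) : 0 < tshW0 μ N c := integral_exp_pos (tsh_W0_int hN c)

theorem tsh_Z_lower (hN : TstNoise μ N) (hF : RegF F) {L : ℝ} (hL : ∀ x, ‖fderiv ℝ F x‖ ≤ L) (m : ℝ) {ε : ℝ}
    (hε0 : 0 ≤ ε) (hε1 : ε ≤ 1) (z : E) :
    Real.exp (m * F z) * tshW0 μ N (|m| * L) ≤ tstZ μ (fun ω => ε • N ω) m F z := by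
  have hL0 : 0 ≤ L := (norm_nonneg _).trans (hL z)
  unfold tshW0 tstZ tstP
  rw [← integral_const_mul]
  refine integral_mono ((tsh_W0_int hN _).const_mul _) (tstZ_integrable (hN.tsh_smul ε) hF m z) fun ω => ?_
  refine le_trans ?_ (tsh_weight_ge hF hL m z (ε • N ω))
  refine mul_le_mul_of_nonneg_left (Real.exp_le_exp.2 ?_) (Real.exp_pos _).le
  rw [norm_smul, Real.norm_eq_abs, abs_of_nonneg hε0]
  have : ε * ‖N ω‖ ≤ ‖N ω‖ := mul_le_of_le_one_left (norm_nonneg _) hε1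
  have h2 : |m| * L * (ε * ‖N ω‖) ≤ |m| * L * ‖N ω‖ := mul_le_mul_of_nonneg_left this (by positivity)
  linarith

theorem tsh_K_one (z : E) : tshK μ N m F (fun _ => (1 : ℝ)) z = 0 := by
  unfold tshK
  have h1 : fderiv ℝ (fun _ : E => (1 : ℝ)) = fun _ => 0 := by ext y; simp
  simp [h1]

theorem tsh_div_exp {e a b c : ℝ} (he : 0 < e) (h : |a - e * b| ≤ e * c) : |a / e - b| ≤ c := by
  have e1 : a / e - b = (a - e * b) / e := by field_simp
  rw [e1, abs_div, abs_of_pos he, div_le_iff₀ he]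
  linarith

theorem tsh_pow4 {ε : ℝ} (h0 : 0 ≤ ε) (h1 : ε ≤ 1) : ε ^ 4 ≤ ε ^ 3 := pow_le_pow_of_le_one h0 h1 (by norm_num)

/-- normalised partition function at small noise -/
theorem tsh_Z_small (hN : TstNoise μ N) (h0 : ∀ ℓ : E →L[ℝ] ℝ, ∫ ω, ℓ (N ω) ∂μ = 0) (hF : RegF F) (m : ℝ) :
    ∃ C : ℝ, 0 ≤ C ∧ ∀ ε : ℝ, 0 ≤ ε → ε ≤ 1 → ∀ z,
      |tstZ μ (fun ω => ε • N ω) m F z / Real.exp (m * F z) - (1 + ε ^ 2 / 2 * (m * tshH μ N m F z))| ≤ C * ε ^ 3 := by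
  obtain ⟨C, hC, h⟩ := tsh_N_small hN h0 hF m (bRegN_const 3 (1 : ℝ))
  refine ⟨C, hC, fun ε h0ε h1ε z => ?_⟩
  have := h ε h0ε h1ε z
  rw [tsh_K_one, ← tstZ_eq_N] at this
  refine tsh_div_exp (Real.exp_pos _) ?_
  simpa using this

/-- **small-noise expansion of the tilted expectation** -/
theorem tsh_E_small (hN : TstNoise μ N) (h0 : ∀ ℓ : E →L[ℝ] ℝ, ∫ ω, ℓ (N ω) ∂μ = 0) (hF : RegF F) (m : ℝ)
    {g : E → ℝ} (hg : BRegN 3 g) :
    ∃ C : ℝ, 0 ≤ C ∧ ∀ ε : ℝ, 0 ≤ ε → ε ≤ 1 → ∀ z,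
      |tstE μ (fun ω => ε • N ω) m F g z - g z - ε ^ 2 / 2 * tshK μ N m F g z| ≤ C * ε ^ 3 := by
  obtain ⟨L, hL0, hL⟩ := hF.lip
  obtain ⟨Cn, hCn, hn⟩ := tsh_N_small hN h0 hF m hg
  obtain ⟨Cz, hCz, hz⟩ := tsh_Z_small hN h0 hF m
  obtain ⟨Cg, hCg⟩ := hg.bdd
  obtain ⟨Ck, hCk⟩ := tsh_K_bdd hN hF m (hg.mono (by norm_num))
  obtain ⟨CH, hCH⟩ := tsh_H_bdd hN hF m
  have hw0 := tsh_W0_pos hN (|m| * L)
  refine ⟨(Cn + Cz * (|Cg| + |Ck|) + |m| * |CH| * |Ck|) / tshW0 μ N (|m| * L), by positivity, fun ε h0ε h1ε z => ?_⟩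
  have he := Real.exp_pos (m * F z)
  have h1 := tsh_div_exp he (hn ε h0ε h1ε z)
  have h2 := hz ε h0ε h1ε z
  have h3 : tshW0 μ N (|m| * L) ≤ tstZ μ (fun ω => ε • N ω) m F z / Real.exp (m * F z) := by
    rw [le_div_iff₀ he, mul_comm]; exact tsh_Z_lower hN hF hL m h0ε h1ε z
  have h4 := tsh_quot hw0 h3 h1 h2
  have e1 : tstN μ (fun ω => ε • N ω) m F g z / Real.exp (m * F z) / (tstZ μ (fun ω => ε • N ω) m F z / Real.exp (m * F z))
      = tstE μ (fun ω => ε • N ω) m F g z := by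
    unfold tstE
    rw [smul_eq_mul]
    field_simp
  rw [e1] at h4
  refine h4.trans ?_
  rw [div_mul_eq_mul_div (Cn + Cz * (|Cg| + |Ck|) + |m| * |CH| * |Ck|)]
  refine div_le_div_of_nonneg_right ?_ hw0.le
  have hx : ε ^ 2 / 2 ≤ 1 := by nlinarith
  have hx0 : 0 ≤ ε ^ 2 / 2 := by positivity
  have hg' : |g z| ≤ |Cg| := (hCg z).trans (le_abs_self _)
  have hk' : |tshK μ N m F g z| ≤ |Ck| := (hCk z).trans (le_abs_self _)
  have hH' : |tshH μ N m F z| ≤ |CH| := (hCH z).trans (le_abs_self _)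
  have b1 : |g z + ε ^ 2 / 2 * tshK μ N m F g z| ≤ |Cg| + |Ck| := by
    calc _ ≤ |g z| + |ε ^ 2 / 2 * tshK μ N m F g z| := abs_add_le _ _
      _ = |g z| + ε ^ 2 / 2 * |tshK μ N m F g z| := by rw [abs_mul, abs_of_nonneg hx0]
      _ ≤ |Cg| + 1 * |Ck| := by gcongr
      _ = _ := by ring
  have b2 : |m * tshH μ N m F z * tshK μ N m F g z| ≤ |m| * |CH| * |Ck| := by
    rw [abs_mul, abs_mul]; gcongr
  have b3 : (ε ^ 2 / 2) ^ 2 ≤ ε ^ 3 := by
    have := tsh_pow4 h0ε h1ε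
    have h5 : 0 ≤ ε ^ 4 := by positivity
    nlinarith
  have hε3 : 0 ≤ ε ^ 3 := by positivity
  calc Cn * ε ^ 3 + Cz * ε ^ 3 * |g z + ε ^ 2 / 2 * tshK μ N m F g z| + (ε ^ 2 / 2) ^ 2 * |m * tshH μ N m F z * tshK μ N m F g z|
      ≤ Cn * ε ^ 3 + Cz * ε ^ 3 * (|Cg| + |Ck|) + ε ^ 3 * (|m| * |CH| * |Ck|) := by gcongr
    _ = _ := by ring

/-- **small-noise expansion of `T_m`** -/
theorem tsh_T_small (hN : TstNoise μ N) (h0 : ∀ ℓ : E →L[ℝ] ℝ, ∫ ω, ℓ (N ω) ∂μ = 0) (hF : RegF F) (m : ℝ) :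
    ∃ C : ℝ, 0 ≤ C ∧ ∀ ε : ℝ, 0 ≤ ε → ε ≤ 1 → ∀ z,
      |tstT μ (fun ω => ε • N ω) m F z - F z - ε ^ 2 / 2 * tshH μ N m F z| ≤ C * ε ^ 3 := by
  obtain ⟨L, hL0, hL⟩ := hF.lip
  by_cases hm : m = 0
  · subst hm
    have hg1 : BRegN 2 (fderiv ℝ F) := hF.2 2
    obtain ⟨C3, hC3⟩ := (tsh_aux_bReg hF 0 (tsh_aux_bReg hF 0 hg1)).bdd
    refine ⟨|C3| / 6 * tshM3 μ N (|(0 : ℝ)| * L), mul_nonneg (by positivity) (tsh_M3_nonneg _), fun ε h0ε h1ε z => ?_⟩
    have key := tsh_small_int hN h0 hF hL 0 hg1 (Ψ := F) (fun y => by simpa using (hF.1 y).hasFDerivAt) hC3 h0ε h1ε z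
    have hC0 : 0 ≤ C3 := (norm_nonneg _).trans (hC3 z)
    rw [abs_of_nonneg hC0]
    have e1 : tstT μ (fun ω => ε • N ω) 0 F z = ∫ ω, F (z + ε • N ω) ∂μ := by unfold tstT tstP; simp
    have e2 : ∫ ω, tshAux 0 F (fderiv ℝ F) z (N ω) (N ω) ∂μ = tshH μ N 0 F z := by
      unfold tshH tshAux; simp
    rw [e2] at key
    rw [e1]
    simpa using key
  · obtain ⟨Cz, hCz, hz⟩ := tsh_Z_small hN h0 hF m
    obtain ⟨CH, hCH⟩ := tsh_H_bdd hN hF m
    have hw0 := tsh_W0_pos hN (|m| * L)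
    have hm' : 0 < |m| := abs_pos.2 hm
    refine ⟨|m|⁻¹ * (Cz + (|m| * |CH| + Cz) ^ 2 / tshW0 μ N (|m| * L)), by positivity, fun ε h0ε h1ε z => ?_⟩
    have he := Real.exp_pos (m * F z)
    have h2 := hz ε h0ε h1ε z
    have h3 : tshW0 μ N (|m| * L) ≤ tstZ μ (fun ω => ε • N ω) m F z / Real.exp (m * F z) := by
      rw [le_div_iff₀ he, mul_comm]; exact tsh_Z_lower hN hF hL m h0ε h1ε z
    set ζ := tstZ μ (fun ω => ε • N ω) m F z / Real.exp (m * F z) with hζ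
    have hζ0 : 0 < ζ := hw0.trans_le h3
    have hZ : tstZ μ (fun ω => ε • N ω) m F z = Real.exp (m * F z) * ζ := by rw [hζ]; field_simp
    have e1 : tstT μ (fun ω => ε • N ω) m F z - F z - ε ^ 2 / 2 * tshH μ N m F z
        = m⁻¹ * ((Real.log ζ - (ζ - 1)) + (ζ - (1 + ε ^ 2 / 2 * (m * tshH μ N m F z)))) := by
      unfold tstT
      rw [if_neg hm, hZ, Real.log_mul he.ne' hζ0.ne', Real.log_exp]
      field_simp
      ring
    have hH' : |tshH μ N m F z| ≤ |CH| := (hCH z).trans (le_abs_self _)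
    have hε3 : 0 ≤ ε ^ 3 := by positivity
    have hε2 : ε ^ 3 ≤ ε ^ 2 := pow_le_pow_of_le_one h0ε h1ε (by norm_num)
    have b1 : |ζ - 1| ≤ (|m| * |CH| + Cz) * ε ^ 2 := by
      calc |ζ - 1| = |(ζ - (1 + ε ^ 2 / 2 * (m * tshH μ N m F z))) + ε ^ 2 / 2 * (m * tshH μ N m F z)| := by congr 1; ring
        _ ≤ |ζ - (1 + ε ^ 2 / 2 * (m * tshH μ N m F z))| + |ε ^ 2 / 2 * (m * tshH μ N m F z)| := abs_add_le _ _
        _ ≤ Cz * ε ^ 3 + ε ^ 2 / 2 * (|m| * |CH|) := by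
            rw [abs_mul (ε ^ 2 / 2), abs_of_nonneg (by positivity : 0 ≤ ε ^ 2 / 2), abs_mul]
            gcongr
        _ ≤ Cz * ε ^ 2 + ε ^ 2 * (|m| * |CH|) := by
            have : 0 ≤ ε ^ 2 * (|m| * |CH|) := by positivity
            have h5 : Cz * ε ^ 3 ≤ Cz * ε ^ 2 := mul_le_mul_of_nonneg_left hε2 hCz
            linarith
        _ = _ := by ring
    have b2 : |Real.log ζ - (ζ - 1)| ≤ (|m| * |CH| + Cz) ^ 2 / tshW0 μ N (|m| * L) * ε ^ 3 := by
      refine (tsh_log hζ0).trans ?_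
      rw [div_mul_eq_mul_div]
      have h6 : (ζ - 1) ^ 2 ≤ (|m| * |CH| + Cz) ^ 2 * ε ^ 3 := by
        calc (ζ - 1) ^ 2 = |ζ - 1| ^ 2 := (sq_abs _).symm
          _ ≤ ((|m| * |CH| + Cz) * ε ^ 2) ^ 2 := pow_le_pow_left₀ (abs_nonneg _) b1 2
          _ = (|m| * |CH| + Cz) ^ 2 * ε ^ 4 := by ring
          _ ≤ _ := mul_le_mul_of_nonneg_left (tsh_pow4 h0ε h1ε) (by positivity)
      calc (ζ - 1) ^ 2 / ζ ≤ (ζ - 1) ^ 2 / tshW0 μ N (|m| * L) := by gcongr
        _ ≤ _ := by gcongr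
    rw [e1, abs_mul, abs_inv, mul_assoc]
    refine mul_le_mul_of_nonneg_left ?_ (by positivity)
    calc _ ≤ |Real.log ζ - (ζ - 1)| + |ζ - (1 + ε ^ 2 / 2 * (m * tshH μ N m F z))| := abs_add_le _ _
      _ ≤ (|m| * |CH| + Cz) ^ 2 / tshW0 μ N (|m| * L) * ε ^ 3 + Cz * ε ^ 3 := add_le_add b2 h2
      _ = _ := by ring

end small2

end

end Claimed.Agent.R286
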