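import Claimed.Agent.R286.Tst.HeatA
import Claimed.Agent.R286.Fd.PressA

/-!
# Row 286 (S0533), Tst/HeatB : the parameter-derivative ENGINE, parts B (semigroup + one step, abstract noise) and G (Gaussian noise, MAIN THEOREM)      (owner helper273; prefix `tsh_`)      no open leaf

* `TshConv μ N U V`   : the law of `N` is the convolution of the laws of `U` and `V` (stated on `tstP`)
* `tsh_conv_T`        : `T_N F = T_U (T_V F)`  (same mass);   `tsh_conv_E` : `E_N^F[g] = E_U^{T_V F}[E_V^F[g]]`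
* `tsh_step_T`        : ONE STEP of the induction for `T`:  total noises `Ns = U * εP`, `Nt = U * εQ`, `|r| = ε²`, `|Fs - F - r F'| ≤ C₀ ε³`
                        `⇒ |T_{Ns} Fs - T_{Nt} F - r E_{Nt}^F[F' + hd]| ≤ C ε³`, with `C` independent of `ε, r, U, Ns, Nt, Fs`

PART G (Gaussian noise with features).
`tshA φ v ξ = ∑ i, (√(v i) ξ i) • φ i`  on ANY real normed space `E`, drivers `ξ` under `ghStd ι`.
* `tsh_A_noise` (`TstNoise`), `tsh_A_centred`, `tsh_A_quad` (covariance), `tsh_A_scale`, `tsh_A_H`, `tsh_A_K`;  moments `tsh_std_one/sq/off`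
* `tsh_conv`        the Gaussian semigroup: `TshConv (tshA φ (u + p)) (tshA φ u) (tshA φ p)`
* `TshU f f'`       UNIFORM FIRST ORDER EXPANSION on `[0,1]`: `∀ t ∃ C ∀ s z, |f s z - f t z - (s - t) f' t z| ≤ C √|s - t|³`;   `TshU.hasDerivWithinAt`
* **`tsh_main_T`**  `TshU F F' ⇒ TshU (θ ↦ tstT (tshA φ (v + θ d)) m (F θ)) (θ ↦ tstE .. (F' θ + tshHd φ d m (F θ)))`,
                    `tshHd φ d m F = ½ ∑ d i (D²F[φ i, φ i] + m (DF φ i)²)`;  zero variances and end points included, ANY real mass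
-/

set_option autoImplicit false
set_option linter.unusedSectionVars false

namespace Claimed.Agent.R286

open MeasureTheory Filter Topology

noncomputable section

variable {E : Type} [NormedAddCommGroup E] [NormedSpace ℝ E]
variable {Ω : Type*} [MeasurableSpace Ω] {μ : Measure Ω} [IsProbabilityMeasure μ] {m : ℝ} {F : E → ℝ}

/-- the law of `N` is the convolution of the laws of `U` and `V` -/
def TshConv (μ : Measure Ω) (N U V : Ω → E) : Prop :=
  ∀ Ψ : E → ℝ, Continuous Ψ → ExpGr Ψ → ∀ x, tstP μ N Ψ x = tstP μ U (tstP μ V Ψ) x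

theorem tsh_Z_eq_exp {V : Ω → E} (hV : TstNoise μ V) (hF : RegF F) (m : ℝ) (y : E) :
    tstZ μ V m F y = Real.exp (m * tstT μ V m F y) := by
  by_cases hm : m = 0
  · subst hm; unfold tstZ tstP; simp
  · unfold tstT
    rw [if_neg hm, ← mul_assoc, mul_inv_cancel₀ hm, one_mul, Real.exp_log (tstZ_pos hV hF m y)]

theorem tsh_N_eq {V : Ω → E} (hV : TstNoise μ V) (hF : RegF F) (m : ℝ) (g : E → ℝ) (y : E) :
    tstN μ V m F g y = Real.exp (m * tstT μ V m F y) * tstE μ V m F g y := by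
  rw [← tsh_Z_eq_exp hV hF]
  unfold tstE
  rw [smul_eq_mul, ← mul_assoc, mul_inv_cancel₀ (tstZ_pos hV hF m y).ne', one_mul]

theorem tsh_conv_Z {N U V : Ω → E} (h : TshConv μ N U V) (hV : TstNoise μ V) (hF : RegF F) (m : ℝ) (x : E) :
    tstZ μ N m F x = tstZ μ U m (tstT μ V m F) x := by
  have h1 := h (fun y => Real.exp (m * F y)) (hF.cont_weight m)
    (by simpa using hF.expGr_weight m (g := fun _ => (1 : ℝ)) (C := 1) (by simp)) x
  unfold tstZ
  rw [h1]
  congr 1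
  funext y
  exact tsh_Z_eq_exp hV hF m y

/-- **semigroup at equal mass** -/
theorem tsh_conv_T {N U V : Ω → E} (h : TshConv μ N U V) (hV : TstNoise μ V) (hF : RegF F) (m : ℝ) (x : E) :
    tstT μ N m F x = tstT μ U m (tstT μ V m F) x := by
  by_cases hm : m = 0
  · subst hm
    unfold tstT
    simp only [if_true]
    exact h F hF.1.continuous hF.expGr x
  · have := tsh_conv_Z h hV hF m x
    conv_lhs => unfold tstT
    conv_rhs => unfold tstT
    rw [if_neg hm, if_neg hm, this]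
    rfl

/-- **tower property at equal mass** -/
theorem tsh_conv_E {N U V : Ω → E} (h : TshConv μ N U V) (hV : TstNoise μ V) (hF : RegF F) (m : ℝ) {g : E → ℝ}
    (hg : BRegN 0 g) (x : E) :
    tstE μ N m F g x = tstE μ U m (tstT μ V m F) (tstE μ V m F g) x := by
  obtain ⟨C, hC⟩ := hg.bdd
  have h1 := h (fun y => Real.exp (m * F y) • g y) ((hF.cont_weight m).smul hg.continuous) (hF.expGr_weight m hC) x
  have h2 : tstN μ N m F g x = tstN μ U m (tstT μ V m F) (tstE μ V m F g) x := by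
    unfold tstN
    rw [h1]
    congr 1
    funext y
    exact tsh_N_eq hV hF m g y
  conv_lhs => unfold tstE
  conv_rhs => unfold tstE
  rw [h2, tsh_conv_Z h hV hF]
  rfl

theorem RegF.tsh_add (hF : RegF F) {a : E → ℝ} (ha : ∀ k, BRegN k a) : RegF (fun y => F y + a y) := by
  have hd : Differentiable ℝ a := (ha 1).tsh_diff
  refine ⟨hF.1.add hd, fun k => ?_⟩
  have : fderiv ℝ (fun y => F y + a y) = fun y => fderiv ℝ F y + fderiv ℝ a y :=
    funext fun y => fderiv_fun_add (hF.1 y) (hd y)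
  rw [this]
  exact (hF.2 k).add (ha (k + 1)).tsh_fderiv

theorem tsh_T_nonexp' {A : Ω → E} (hN : TstNoise μ A) {G : E → ℝ} (hF : RegF F) (hG : RegF G) {K : ℝ}
    (hK : ∀ y, |G y - F y| ≤ K) (x : E) : |tstT μ A m G x - tstT μ A m F x| ≤ K := tsh_T_nonexp hN hF hG hK x

theorem tsh_T_second' {A : Ω → E} (hN : TstNoise μ A) (hF : RegF F) {a : E → ℝ} (ha : ∀ k, BRegN k a) {K : ℝ}
    (hK : ∀ y, |a y| ≤ K) (x : E) :
    |tstT μ A m (fun y => F y + a y) x - tstT μ A m F x - tstE μ A m F a x| ≤ 2 * |m| * K ^ 2 * Real.exp (3 * (|m| * K)) := by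
  have h := tsh_T_second (m := m) hN hF (hF.tsh_add ha) (K := K) (fun y => by simpa using hK y) x
  have e : (fun y => F y + a y - F y) = a := by funext y; ring
  rwa [e] at h

/-- first order form of `tsh_E_small` -/
theorem tsh_E_small1 {N : Ω → E} (hN : TstNoise μ N) (h0 : ∀ ℓ : E →L[ℝ] ℝ, ∫ ω, ℓ (N ω) ∂μ = 0) (hF : RegF F) (m : ℝ)
    {g : E → ℝ} (hg : BRegN 3 g) :
    ∃ C : ℝ, 0 ≤ C ∧ ∀ ε : ℝ, 0 ≤ ε → ε ≤ 1 → ∀ z, |tstE μ (fun ω => ε • N ω) m F g z - g z| ≤ C * ε := by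
  obtain ⟨C, hC, h⟩ := tsh_E_small hN h0 hF m hg
  obtain ⟨Ck, hCk⟩ := tsh_K_bdd hN hF m (hg.mono (by norm_num))
  refine ⟨C + |Ck|, by positivity, fun ε h0ε h1ε z => ?_⟩
  have h1 := h ε h0ε h1ε z
  have h2 : |tshK μ N m F g z| ≤ |Ck| := (hCk z).trans (le_abs_self _)
  have h3 : ε ^ 3 ≤ ε := by
    calc ε ^ 3 ≤ ε ^ 1 := pow_le_pow_of_le_one h0ε h1ε (by norm_num)
      _ = ε := pow_one ε
  have h4 : ε ^ 2 / 2 ≤ ε := by nlinarith
  calc |tstE μ (fun ω => ε • N ω) m F g z - g z|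
      = |(tstE μ (fun ω => ε • N ω) m F g z - g z - ε ^ 2 / 2 * tshK μ N m F g z) + ε ^ 2 / 2 * tshK μ N m F g z| := by
        congr 1; ring
    _ ≤ |tstE μ (fun ω => ε • N ω) m F g z - g z - ε ^ 2 / 2 * tshK μ N m F g z| + |ε ^ 2 / 2 * tshK μ N m F g z| :=
        abs_add_le _ _
    _ ≤ C * ε ^ 3 + ε * |Ck| := by
        rw [abs_mul (ε ^ 2 / 2), abs_of_nonneg (by positivity : 0 ≤ ε ^ 2 / 2)]
        gcongr
    _ ≤ C * ε + ε * |Ck| := by gcongr
    _ = _ := by ring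

theorem tsh_abs5 (a b c d e : ℝ) : |a + b + c + d - e| ≤ |a| + |b| + |c| + |d| + |e| := by
  have h1 := abs_sub (a + b + c + d) e
  have h2 := abs_add_le (a + b + c) d
  have h3 := abs_add_le (a + b) c
  have h4 := abs_add_le a b
  linarith

theorem tsh_abs3 (a b c : ℝ) : |a + b + c| ≤ |a| + |b| + |c| := by
  have h3 := abs_add_le (a + b) c
  have h4 := abs_add_le a b
  linarith

theorem tsh_c_bound (m K : ℝ) {ε : ℝ} (h0 : 0 ≤ ε) (h1 : ε ≤ 1) :
    2 * |m| * (ε ^ 2 * |K|) ^ 2 * Real.exp (3 * (|m| * (ε ^ 2 * |K|))) ≤ 2 * |m| * |K| ^ 2 * Real.exp (3 * (|m| * |K|)) * ε ^ 3 := by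
  have h2 : ε ^ 2 ≤ 1 := pow_le_one₀ h0 h1
  have h3 : ε ^ 2 * |K| ≤ |K| := mul_le_of_le_one_left (abs_nonneg K) h2
  have h4 : Real.exp (3 * (|m| * (ε ^ 2 * |K|))) ≤ Real.exp (3 * (|m| * |K|)) :=
    Real.exp_le_exp.2 (by have := mul_le_mul_of_nonneg_left h3 (abs_nonneg m); linarith)
  have h5 := tsh_pow4 h0 h1
  calc 2 * |m| * (ε ^ 2 * |K|) ^ 2 * Real.exp (3 * (|m| * (ε ^ 2 * |K|)))
      = 2 * |m| * |K| ^ 2 * ε ^ 4 * Real.exp (3 * (|m| * (ε ^ 2 * |K|))) := by ring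
    _ ≤ 2 * |m| * |K| ^ 2 * ε ^ 3 * Real.exp (3 * (|m| * |K|)) := by gcongr
    _ = _ := by ring

/-- **ONE STEP of the induction for `T`.**   `C` does not depend on `ε, r`, on the common noise `U`, nor on `Fs`. -/
theorem tsh_step_T {P Q : Ω → E} (hP : TstNoise μ P) (hP0 : ∀ ℓ : E →L[ℝ] ℝ, ∫ ω, ℓ (P ω) ∂μ = 0)
    (hQ : TstNoise μ Q) (hQ0 : ∀ ℓ : E →L[ℝ] ℝ, ∫ ω, ℓ (Q ω) ∂μ = 0) (hF : RegF F) (m : ℝ)
    {F' hd : E → ℝ} (hF' : ∀ k, BRegN k F') (hhd : ∀ k, BRegN k hd) (C₀ : ℝ) :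
    ∃ C : ℝ, ∀ ε r : ℝ, 0 ≤ ε → ε ≤ 1 → |r| = ε ^ 2 →
      (∀ z, ε ^ 2 / 2 * (tshH μ P m F z - tshH μ Q m F z) = r * hd z) →
      ∀ U Ns Nt : Ω → E, TstNoise μ U → TshConv μ Ns U (fun ω => ε • P ω) → TshConv μ Nt U (fun ω => ε • Q ω) →
      ∀ Fs : E → ℝ, RegF Fs → (∀ z, |Fs z - F z - r * F' z| ≤ C₀ * ε ^ 3) →
      ∀ z, |tstT μ Ns m Fs z - tstT μ Nt m F z - r * tstE μ Nt m F (fun y => F' y + hd y) z| ≤ C * ε ^ 3 := by
  have hD1 : ∀ k, BRegN k (fun y => F' y + hd y) := fun k => (hF' k).add (hhd k)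
  obtain ⟨K, hK⟩ := (hF' 0).bdd
  obtain ⟨K1, hK1⟩ := (hD1 0).bdd
  obtain ⟨Cp, hCp0, hCp⟩ := tsh_T_small hP hP0 hF m
  obtain ⟨Cq, hCq0, hCq⟩ := tsh_T_small hQ hQ0 hF m
  obtain ⟨Ce, hCe0, hCe⟩ := tsh_E_small1 hP hP0 hF m (hF' 3)
  obtain ⟨Cd, hCd0, hCd⟩ := tsh_E_small1 hQ hQ0 hF m (hD1 3)
  refine ⟨(C₀ + 2 * |m| * |K| ^ 2 * Real.exp (3 * (|m| * |K|)) + Ce + Cp + Cq)
    + 2 * |m| * |K1| ^ 2 * Real.exp (3 * (|m| * |K1|)) + Cd, ?_⟩
  intro ε r h0 h1 hr hrel U Ns Nt hU hcs hct Fs hFs hexp z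
  have hPε := hP.tsh_smul ε
  have hQε := hQ.tsh_smul ε
  have hε3 : 0 ≤ ε ^ 3 := by positivity
  have hrF' : ∀ k, BRegN k (fun y => r * F' y) := fun k => (hF' k).const_smul r
  have hrD1 : ∀ k, BRegN k (fun y => r * (F' y + hd y)) := fun k => (hD1 k).const_smul r
  have ha1 : RegF (tstT μ (fun ω => ε • P ω) m Fs) := tstT_regF hPε hFs m
  have hG0 : RegF (tstT μ (fun ω => ε • Q ω) m F) := tstT_regF hQε hF m
  -- the inner comparison
  have b6 : ∀ y, |tstT μ (fun ω => ε • P ω) m Fs y - (tstT μ (fun ω => ε • Q ω) m F y + r * (F' y + hd y))|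
      ≤ (C₀ + 2 * |m| * |K| ^ 2 * Real.exp (3 * (|m| * |K|)) + Ce + Cp + Cq) * ε ^ 3 := by
    intro y
    have t1 : |tstT μ (fun ω => ε • P ω) m Fs y - tstT μ (fun ω => ε • P ω) m (fun y => F y + r * F' y) y| ≤ C₀ * ε ^ 3 :=
      tsh_T_nonexp hPε (hF.tsh_add hrF') hFs (fun y => by
        have := hexp y
        rwa [show Fs y - F y - r * F' y = Fs y - (F y + r * F' y) by ring] at this) y
    have t2 := tsh_T_second' (m := m) hPε hF hrF' (K := ε ^ 2 * |K|) (fun y => by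
      rw [abs_mul, hr]
      exact mul_le_mul_of_nonneg_left ((hK y).trans (le_abs_self K)) (by positivity)) y
    have t2' := t2.trans (tsh_c_bound m K h0 h1)
    have t3 : tstE μ (fun ω => ε • P ω) m F (fun y => r * F' y) y = r * tstE μ (fun ω => ε • P ω) m F F' y :=
      tstE_smul r F' y
    rw [t3] at t2'
    have t4 : |r * (tstE μ (fun ω => ε • P ω) m F F' y - F' y)| ≤ Ce * ε ^ 3 := by
      rw [abs_mul, hr]
      calc ε ^ 2 * |tstE μ (fun ω => ε • P ω) m F F' y - F' y| ≤ ε ^ 2 * (Ce * ε) :=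
            mul_le_mul_of_nonneg_left (hCe ε h0 h1 y) (by positivity)
        _ = _ := by ring
    have t5 := hCp ε h0 h1 y
    have t6 := hCq ε h0 h1 y
    have t7 := hrel y
    have key : tstT μ (fun ω => ε • P ω) m Fs y - (tstT μ (fun ω => ε • Q ω) m F y + r * (F' y + hd y))
        = (tstT μ (fun ω => ε • P ω) m Fs y - tstT μ (fun ω => ε • P ω) m (fun y => F y + r * F' y) y)
          + (tstT μ (fun ω => ε • P ω) m (fun y => F y + r * F' y) y - tstT μ (fun ω => ε • P ω) m F y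
              - r * tstE μ (fun ω => ε • P ω) m F F' y)
          + r * (tstE μ (fun ω => ε • P ω) m F F' y - F' y)
          + (tstT μ (fun ω => ε • P ω) m F y - F y - ε ^ 2 / 2 * tshH μ P m F y)
          - (tstT μ (fun ω => ε • Q ω) m F y - F y - ε ^ 2 / 2 * tshH μ Q m F y) := by
      linear_combination t7
    rw [key]
    refine (tsh_abs5 _ _ _ _ _).trans ?_
    linarith
  -- the outer comparison
  have o1 : tstT μ Ns m Fs z = tstT μ U m (tstT μ (fun ω => ε • P ω) m Fs) z := tsh_conv_T hcs hPε hFs m z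
  have o4 : tstT μ Nt m F z = tstT μ U m (tstT μ (fun ω => ε • Q ω) m F) z := tsh_conv_T hct hQε hF m z
  have o2 := tsh_T_nonexp (m := m) hU (hG0.tsh_add hrD1) ha1 b6 z
  have o3 := tsh_T_second' (m := m) hU hG0 hrD1 (K := ε ^ 2 * |K1|) (fun y => by
    rw [abs_mul, hr]
    exact mul_le_mul_of_nonneg_left ((hK1 y).trans (le_abs_self K1)) (by positivity)) z
  have o3' := o3.trans (tsh_c_bound m K1 h0 h1)
  have o3e : tstE μ U m (tstT μ (fun ω => ε • Q ω) m F) (fun y => r * (F' y + hd y)) z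
      = r * tstE μ U m (tstT μ (fun ω => ε • Q ω) m F) (fun y => F' y + hd y) z := tstE_smul r _ z
  rw [o3e] at o3'
  have o5 : tstE μ Nt m F (fun y => F' y + hd y) z
      = tstE μ U m (tstT μ (fun ω => ε • Q ω) m F) (tstE μ (fun ω => ε • Q ω) m F (fun y => F' y + hd y)) z :=
    tsh_conv_E hct hQε hF m (hD1 0) z
  have o6 : |tstE μ U m (tstT μ (fun ω => ε • Q ω) m F) (fun y => F' y + hd y) z - tstE μ Nt m F (fun y => F' y + hd y) z|
      ≤ Cd * ε := by
    rw [o5, abs_sub_comm]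
    exact tsh_E_close hU hG0 (tstE_bRegN_zero hQε hF (hD1 0)) (hD1 0) (hCd ε h0 h1) z
  have o7 : |r * (tstE μ U m (tstT μ (fun ω => ε • Q ω) m F) (fun y => F' y + hd y) z - tstE μ Nt m F (fun y => F' y + hd y) z)|
      ≤ Cd * ε ^ 3 := by
    rw [abs_mul, hr]
    calc _ ≤ ε ^ 2 * (Cd * ε) := mul_le_mul_of_nonneg_left o6 (by positivity)
      _ = _ := by ring
  have key : tstT μ Ns m Fs z - tstT μ Nt m F z - r * tstE μ Nt m F (fun y => F' y + hd y) z
      = (tstT μ U m (tstT μ (fun ω => ε • P ω) m Fs) z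
          - tstT μ U m (fun y => tstT μ (fun ω => ε • Q ω) m F y + r * (F' y + hd y)) z)
        + (tstT μ U m (fun y => tstT μ (fun ω => ε • Q ω) m F y + r * (F' y + hd y)) z
          - tstT μ U m (tstT μ (fun ω => ε • Q ω) m F) z
          - r * tstE μ U m (tstT μ (fun ω => ε • Q ω) m F) (fun y => F' y + hd y) z)
        + r * (tstE μ U m (tstT μ (fun ω => ε • Q ω) m F) (fun y => F' y + hd y) z
          - tstE μ Nt m F (fun y => F' y + hd y) z) := by
    rw [o1, o4]; ring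
  rw [key]
  refine (tsh_abs3 _ _ _).trans ?_
  linarith

end

/-! ## PART G : Gaussian noise with features -/

open ProbabilityTheory

noncomputable section

variable {E : Type} [NormedAddCommGroup E] [NormedSpace ℝ E]
variable {ι ι' : Type} [Fintype ι] [Fintype ι']

/-- the Gaussian noise with features `φ i ∈ E` and variances `v i` -/
def tshA (φ : ι → E) (v : ι → ℝ) (ξ : ι → ℝ) : E := ∑ i, (Real.sqrt (v i) * ξ i) • φ i

theorem tsh_A_cont (φ : ι → E) (v : ι → ℝ) : Continuous (tshA φ v) := by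
  unfold tshA
  fun_prop

theorem tsh_A_norm_le (φ : ι → E) (v : ι → ℝ) (ξ : ι → ℝ) :
    ‖tshA φ v ξ‖ ≤ (∑ i, Real.sqrt (v i) * ‖φ i‖) * ∑ i, |ξ i| := by
  unfold tshA
  refine (norm_sum_le _ _).trans ?_
  rw [Finset.sum_mul]
  refine Finset.sum_le_sum fun i _ => ?_
  rw [norm_smul, Real.norm_eq_abs, abs_mul, abs_of_nonneg (Real.sqrt_nonneg _)]
  have h1 : |ξ i| ≤ ∑ j, |ξ j| := Finset.single_le_sum (f := fun j => |ξ j|) (fun j _ => abs_nonneg _) (Finset.mem_univ i)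
  calc Real.sqrt (v i) * |ξ i| * ‖φ i‖ = Real.sqrt (v i) * ‖φ i‖ * |ξ i| := by ring
    _ ≤ _ := mul_le_mul_of_nonneg_left h1 (by positivity)

theorem tsh_A_noise (φ : ι → E) (v : ι → ℝ) : TstNoise (ghStd ι) (tshA φ v) := by
  refine ⟨(tsh_A_cont φ v).aestronglyMeasurable, fun c => ?_⟩
  refine Integrable.mono' (ghq_exp_l1 (|c| * ∑ i, Real.sqrt (v i) * ‖φ i‖))
    (Real.continuous_exp.comp (continuous_const.mul (tsh_A_cont φ v).norm)).aestronglyMeasurable
    (Eventually.of_forall fun ξ => ?_)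
  rw [Real.norm_eq_abs, abs_of_pos (Real.exp_pos _)]
  refine Real.exp_le_exp.2 ?_
  calc c * ‖tshA φ v ξ‖ ≤ |c| * ‖tshA φ v ξ‖ := mul_le_mul_of_nonneg_right (le_abs_self c) (norm_nonneg _)
    _ ≤ |c| * ((∑ i, Real.sqrt (v i) * ‖φ i‖) * ∑ i, |ξ i|) := mul_le_mul_of_nonneg_left (tsh_A_norm_le φ v ξ) (abs_nonneg c)
    _ = _ := by ring

theorem tsh_A_scale (φ : ι → E) (c : ι → ℝ) {ε : ℝ} (hε : 0 ≤ ε) :
    tshA φ (fun i => ε ^ 2 * c i) = fun ξ => ε • tshA φ c ξ := by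
  funext ξ
  unfold tshA
  rw [Finset.smul_sum]
  refine Finset.sum_congr rfl fun i _ => ?_
  rw [Real.sqrt_mul (sq_nonneg ε), Real.sqrt_sq hε, smul_smul]
  congr 1; ring

/-! ### moments of the standard drivers -/

theorem tsh_std_eval (i : ι) (f : ℝ → ℝ) (hf : AEStronglyMeasurable f (gaussianReal 0 1)) :
    ∫ ξ, f (ξ i) ∂ghStd ι = ∫ x, f x ∂gaussianReal 0 1 := by
  have h := (measurePreserving_eval (fun _ : ι => gaussianReal 0 1) i)
  rw [← h.map_eq] at hf ⊢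
  exact (integral_map h.measurable.aemeasurable hf).symm

theorem tsh_std_one (i : ι) : ∫ ξ, ξ i ∂ghStd ι = 0 := by
  rw [tsh_std_eval i (fun x => x) aestronglyMeasurable_id]
  simp

theorem tsh_std_sq (i : ι) : ∫ ξ, ξ i * ξ i ∂ghStd ι = 1 := by
  rw [tsh_std_eval i (fun x => x * x) (by fun_prop)]
  have h := variance_id_gaussianReal (μ := 0) (v := 1)
  rw [variance_eq_sub (memLp_id_gaussianReal 2)] at h
  simp only [id_eq, integral_id_gaussianReal, Pi.pow_apply] at h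
  simpa [sq] using h

theorem tsh_std_off {i j : ι} (hij : i ≠ j) : ∫ ξ, ξ i * ξ j ∂ghStd ι = 0 := by
  have h : iIndepFun (fun (i : ι) (ω : ι → ℝ) => id (ω i)) (Measure.pi fun _ : ι => gaussianReal 0 1) :=
    iIndepFun_pi (X := fun _ => id) (fun _ => aemeasurable_id)
  have h2 := (h.indepFun hij).integral_fun_mul_eq_mul_integral
    (measurable_pi_apply i).aestronglyMeasurable (measurable_pi_apply j).aestronglyMeasurable
  simp only [id_eq] at h2
  have h3 := tsh_std_one i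
  unfold ghStd at h3 ⊢
  rw [h2, h3, zero_mul]

theorem tsh_std_noise : TstNoise (ghStd ι) (fun ξ : ι → ℝ => ξ) := by
  refine ⟨aestronglyMeasurable_id, fun c => ?_⟩
  refine Integrable.mono' (ghq_exp_l1 |c|) (by fun_prop) (Eventually.of_forall fun ξ => ?_)
  rw [Real.norm_eq_abs, abs_of_pos (Real.exp_pos _)]
  refine Real.exp_le_exp.2 ?_
  have h1 : ‖ξ‖ ≤ ∑ i, |ξ i| := by
    refine (pi_norm_le_iff_of_nonneg (Finset.sum_nonneg fun i _ => abs_nonneg _)).2 fun i => ?_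
    exact Finset.single_le_sum (f := fun j => |ξ j|) (fun j _ => abs_nonneg _) (Finset.mem_univ i)
  calc c * ‖ξ‖ ≤ |c| * ‖ξ‖ := mul_le_mul_of_nonneg_right (le_abs_self c) (norm_nonneg _)
    _ ≤ _ := mul_le_mul_of_nonneg_left h1 (abs_nonneg c)

theorem tsh_std_int1 (i : ι) : Integrable (fun ξ : ι → ℝ => ξ i) (ghStd ι) :=
  tsh_int_lin tsh_std_noise (ContinuousLinearMap.proj i)

theorem tsh_std_int2 (i j : ι) : Integrable (fun ξ : ι → ℝ => ξ i * ξ j) (ghStd ι) :=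
  tsh_int_two tsh_std_noise (ContinuousLinearMap.proj i) (ContinuousLinearMap.proj j)

/-- the noise is centred -/
theorem tsh_A_centred (φ : ι → E) (v : ι → ℝ) (ℓ : E →L[ℝ] ℝ) : ∫ ξ, ℓ (tshA φ v ξ) ∂ghStd ι = 0 := by
  have e : ∀ ξ : ι → ℝ, ℓ (tshA φ v ξ) = ∑ i, (Real.sqrt (v i) * ℓ (φ i)) * ξ i := by
    intro ξ
    unfold tshA
    rw [map_sum]
    refine Finset.sum_congr rfl fun i _ => ?_
    rw [map_smul, smul_eq_mul]; ring
  simp_rw [e]
  rw [integral_finsetSum _ fun i _ => (tsh_std_int1 i).const_mul _]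
  refine Finset.sum_eq_zero fun i _ => ?_
  rw [integral_const_mul, tsh_std_one, mul_zero]

/-- the covariance of the noise -/
theorem tsh_A_quad (φ : ι → E) (v : ι → ℝ) (hv : ∀ i, 0 ≤ v i) (b : E →L[ℝ] E →L[ℝ] ℝ) :
    ∫ ξ, b (tshA φ v ξ) (tshA φ v ξ) ∂ghStd ι = ∑ i, v i * b (φ i) (φ i) := by
  classical
  have e : ∀ ξ : ι → ℝ, b (tshA φ v ξ) (tshA φ v ξ)
      = ∑ i, ∑ j, (Real.sqrt (v i) * Real.sqrt (v j) * b (φ i) (φ j)) * (ξ i * ξ j) := by
    intro ξ
    unfold tshA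
    simp only [map_sum, map_smul, _root_.sum_apply, _root_.smul_apply, smul_eq_mul, Finset.mul_sum]
    rw [Finset.sum_comm]
    refine Finset.sum_congr rfl fun i _ => Finset.sum_congr rfl fun j _ => ?_
    ring
  simp_rw [e]
  rw [integral_finsetSum _ fun i _ => integrable_finsetSum _ fun j _ => (tsh_std_int2 i j).const_mul _]
  refine Finset.sum_congr rfl fun i _ => ?_
  rw [integral_finsetSum _ fun j _ => (tsh_std_int2 i j).const_mul _]
  rw [Finset.sum_eq_single i]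
  · rw [integral_const_mul, tsh_std_sq, mul_one, Real.mul_self_sqrt (hv i)]
  · intro j _ hj
    rw [integral_const_mul, tsh_std_off (Ne.symm hj), mul_zero]
  · simp

/-- the heat term of the tilt for the Gaussian noise -/
theorem tsh_A_H (φ : ι → E) (v : ι → ℝ) (hv : ∀ i, 0 ≤ v i) (m : ℝ) (F : E → ℝ) (z : E) :
    tshH (ghStd ι) (tshA φ v) m F z
      = ∑ i, v i * (fderiv ℝ (fderiv ℝ F) z (φ i) (φ i) + m * (fderiv ℝ F z (φ i)) ^ 2) := by
  have h := tsh_A_quad φ v hv (fderiv ℝ (fderiv ℝ F) z + m • (fderiv ℝ F z).smulRight (fderiv ℝ F z))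
  unfold tshH
  simp only [_root_.add_apply, _root_.smul_apply, ContinuousLinearMap.smulRight_apply, smul_eq_mul] at h
  simp only [sq]
  exact h

/-- the heat term of an observable for the Gaussian noise -/
theorem tsh_A_K (φ : ι → E) (v : ι → ℝ) (hv : ∀ i, 0 ≤ v i) (m : ℝ) (F g : E → ℝ) (z : E) :
    tshK (ghStd ι) (tshA φ v) m F g z
      = ∑ i, v i * (fderiv ℝ (fderiv ℝ g) z (φ i) (φ i) + 2 * m * (fderiv ℝ F z (φ i) * fderiv ℝ g z (φ i))) := by
  have h := tsh_A_quad φ v hv (fderiv ℝ (fderiv ℝ g) z + (2 * m) • (fderiv ℝ F z).smulRight (fderiv ℝ g z))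
  unfold tshK
  simp only [_root_.add_apply, _root_.smul_apply, ContinuousLinearMap.smulRight_apply, smul_eq_mul] at h
  exact h

/-! ### the Gaussian semigroup -/

theorem tsh_A_sum (φ : ι → E) (u p : ι → ℝ) (ζ : ι ⊕ ι → ℝ) :
    tshA (Sum.elim φ φ) (Sum.elim u p) ζ
      = ∑ s, (Real.sqrt (u s) * ζ (Sum.inl s) + Real.sqrt (p s) * ζ (Sum.inr s)) • φ s := by
  unfold tshA
  rw [Fintype.sum_sum_type, ← Finset.sum_add_distrib]
  refine Finset.sum_congr rfl fun s _ => ?_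
  simp [add_smul]

/-- **the law of `tshA φ (u + p)` is the convolution of the laws of `tshA φ u` and `tshA φ p`** -/
theorem tsh_conv (φ : ι → E) (u p : ι → ℝ) (hu : ∀ i, 0 ≤ u i) (hp : ∀ i, 0 ≤ p i) :
    TshConv (ghStd ι) (tshA φ (fun i => u i + p i)) (tshA φ u) (tshA φ p) := by
  classical
  intro Ψ hΨ hg x
  have hlaw := gh_l_law_congr (S := ι) (ι := ι) (ι' := ι ⊕ ι) (fun s i => if s = i then Real.sqrt (u i + p i) else 0)
     (fun s => Sum.elim (fun i => if s = i then Real.sqrt (u i) else 0) (fun i => if s = i then Real.sqrt (p i) else 0))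
     (fun s t => by
        rw [Fintype.sum_sum_type]
        simp only [Sum.elim_inl, Sum.elim_inr, ite_mul, zero_mul, Finset.sum_ite_eq, Finset.mem_univ, if_true]
        by_cases hst : t = s
        · subst hst
          simp only [if_true]
          rw [Real.mul_self_sqrt (hu t), Real.mul_self_sqrt (hp t), Real.mul_self_sqrt (add_nonneg (hu t) (hp t))]
        · simp [hst])
  have e1 : (fun (ξ : ι → ℝ) (s : ι) => ∑ i, (if s = i then Real.sqrt (u i + p i) else 0) * ξ i)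
      = fun ξ s => Real.sqrt (u s + p s) * ξ s := by
    funext ξ s; simp
  have e2 : (fun (ζ : ι ⊕ ι → ℝ) (s : ι) => ∑ k, Sum.elim (fun i => if s = i then Real.sqrt (u i) else 0)
        (fun i => if s = i then Real.sqrt (p i) else 0) k * ζ k)
      = fun ζ s => Real.sqrt (u s) * ζ (Sum.inl s) + Real.sqrt (p s) * ζ (Sum.inr s) := by
    funext ζ s; rw [Fintype.sum_sum_type]; simp
  rw [e1, e2] at hlaw
  set f : (ι → ℝ) → ℝ := fun c => Ψ (x + ∑ s, c s • φ s) with hf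
  have hfc : Continuous f := hΨ.comp (by fun_prop)
  have hM1 : Measurable fun (ξ : ι → ℝ) (s : ι) => Real.sqrt (u s + p s) * ξ s := by fun_prop
  have hM2 : Measurable fun (ζ : ι ⊕ ι → ℝ) (s : ι) => Real.sqrt (u s) * ζ (Sum.inl s) + Real.sqrt (p s) * ζ (Sum.inr s) := by
    fun_prop
  have s1 : tstP (ghStd ι) (tshA φ (fun i => u i + p i)) Ψ x
      = ∫ ζ, f (fun s => Real.sqrt (u s) * ζ (Sum.inl s) + Real.sqrt (p s) * ζ (Sum.inr s)) ∂ghStd (ι ⊕ ι) := by
    have a1 : tstP (ghStd ι) (tshA φ (fun i => u i + p i)) Ψ x = ∫ ξ, f (fun s => Real.sqrt (u s + p s) * ξ s) ∂ghStd ι := rfl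
    rw [a1, ← integral_map hM1.aemeasurable hfc.aestronglyMeasurable, hlaw,
      integral_map hM2.aemeasurable hfc.aestronglyMeasurable]
  have hint : Integrable (fun ζ : ι ⊕ ι → ℝ =>
      f (fun s => Real.sqrt (u s) * ζ (Sum.inl s) + Real.sqrt (p s) * ζ (Sum.inr s))) (ghStd (ι ⊕ ι)) := by
    have := (tsh_A_noise (Sum.elim φ φ) (Sum.elim u p)).integrable hΨ hg x
    simp_rw [tsh_A_sum] at this
    exact this
  have s2 := fpr_cat_integral (ι := ι) (ι' := ι)
    (g := fun q : (ι → ℝ) × (ι → ℝ) => f (fun s => Real.sqrt (u s) * q.1 s + Real.sqrt (p s) * q.2 s))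
    (fpr_cat_integrable hint)
  rw [s1, s2]
  unfold tstP tshA
  refine integral_congr_ae (Eventually.of_forall fun ξ => integral_congr_ae (Eventually.of_forall fun η => ?_))
  simp only [hf, add_smul, Finset.sum_add_distrib, add_assoc]

/-! ### the uniform expansion and the main theorem for `T` -/

/-- **uniform first order expansion on `[0,1]`** (rate `|s - t|^{3/2}`, uniform in the space variable) -/
def TshU (f f' : ℝ → E → ℝ) : Prop :=
  ∀ t ∈ Set.Icc (0 : ℝ) 1, ∃ C : ℝ, ∀ s ∈ Set.Icc (0 : ℝ) 1, ∀ z, |f s z - f t z - (s - t) * f' t z| ≤ C * Real.sqrt |s - t| ^ 3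

theorem TshU.hasDerivWithinAt {f f' : ℝ → E → ℝ} (h : TshU f f') {t : ℝ} (ht : t ∈ Set.Icc (0 : ℝ) 1) (z : E) :
    HasDerivWithinAt (fun s => f s z) (f' t z) (Set.Icc 0 1) t := by
  obtain ⟨C, hC⟩ := h t ht
  rw [hasDerivWithinAt_iff_isLittleO, Asymptotics.isLittleO_iff]
  intro c hc
  have hδ : 0 < (c / (|C| + 1)) ^ 2 := by positivity
  have hball : Metric.ball t ((c / (|C| + 1)) ^ 2) ∈ 𝓝 t := Metric.ball_mem_nhds t hδ
  filter_upwards [self_mem_nhdsWithin, mem_nhdsWithin_of_mem_nhds hball] with s hs hs2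
  have h1 := hC s hs z
  rw [Metric.mem_ball, Real.dist_eq] at hs2
  have h2 : Real.sqrt |s - t| ≤ c / (|C| + 1) := by
    rw [Real.sqrt_le_left (by positivity)]
    exact hs2.le
  have h3 : Real.sqrt |s - t| ^ 3 = |s - t| * Real.sqrt |s - t| := by
    rw [pow_succ, Real.sq_sqrt (abs_nonneg _)]
  rw [smul_eq_mul, Real.norm_eq_abs, Real.norm_eq_abs]
  refine h1.trans ?_
  rw [h3]
  have h4 : |C| * (c / (|C| + 1)) ≤ c := by
    rw [← mul_div_assoc, div_le_iff₀ (by positivity)]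
    nlinarith [abs_nonneg C]
  calc C * (|s - t| * Real.sqrt |s - t|) ≤ |C| * (|s - t| * (c / (|C| + 1))) := by
        gcongr
        exact le_abs_self C
    _ = (|C| * (c / (|C| + 1))) * |s - t| := by ring
    _ ≤ c * |s - t| := by gcongr

theorem tsh_bReg_sum {α : Type*} {k : ℕ} (s : Finset α) (f : α → E → ℝ) (h : ∀ i ∈ s, BRegN k (f i)) :
    BRegN k (fun y => ∑ i ∈ s, f i y) := by
  classical
  induction s using Finset.induction_on with
  | empty => simpa using bRegN_const k (0 : ℝ)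
  | insert a s ha ih =>
    simp only [Finset.sum_insert ha]
    exact (h a (Finset.mem_insert_self a s)).add (ih fun i hi => h i (Finset.mem_insert_of_mem hi))

/-- the heat drift of the tilt: `½ ∑ d i (D²F[φ i, φ i] + m (DF φ i)²)` -/
def tshHd (φ : ι → E) (d : ι → ℝ) (m : ℝ) (F : E → ℝ) (z : E) : ℝ :=
  1 / 2 * ∑ i, d i * (fderiv ℝ (fderiv ℝ F) z (φ i) (φ i) + m * (fderiv ℝ F z (φ i)) ^ 2)

theorem tsh_Hd_bReg (φ : ι → E) (d : ι → ℝ) (m : ℝ) {F : E → ℝ} (hF : RegF F) (k : ℕ) : BRegN k (tshHd φ d m F) := by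
  unfold tshHd
  refine BRegN.const_smul (1 / 2 : ℝ) (tsh_bReg_sum _ _ fun i _ => ?_)
  refine BRegN.const_smul (d i) (BRegN.add ?_ (BRegN.const_smul m ?_))
  · exact ((hF.2 (k + 1)).tsh_fderiv.apply (φ i)).apply (φ i)
  · simp only [sq]
    exact ((hF.2 k).apply (φ i)).mul ((hF.2 k).apply (φ i))

theorem tsh_seg_nonneg {v d θ : ℝ} (hv : 0 ≤ v) (hvd : 0 ≤ v + d) (hθ : θ ∈ Set.Icc (0 : ℝ) 1) : 0 ≤ v + θ * d := by
  have : v + θ * d = (1 - θ) * v + θ * (v + d) := by ring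
  rw [this]
  exact add_nonneg (mul_nonneg (by linarith [hθ.2]) hv) (mul_nonneg hθ.1 hvd)

theorem tsh_split_pos {v d s t : ℝ} (h : 0 ≤ s - t) :
    v + s * d = min (v + s * d) (v + t * d) + (s - t) * max d 0 ∧
    v + t * d = min (v + s * d) (v + t * d) + (s - t) * max (-d) 0 := by
  rcases le_total 0 d with hd | hd
  · have h1 : v + t * d ≤ v + s * d := by nlinarith
    rw [min_eq_right h1, max_eq_left hd, max_eq_right (by linarith)]
    constructor <;> ring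
  · have h1 : v + s * d ≤ v + t * d := by nlinarith
    rw [min_eq_left h1, max_eq_right hd, max_eq_left (by linarith)]
    constructor <;> ring

/-- **MAIN THEOREM for `T`**: one Gaussian level with variances `v + θ d` preserves the uniform expansion -/
theorem tsh_main_T (φ : ι → E) (v d : ι → ℝ) (hv : ∀ i, 0 ≤ v i) (hvd : ∀ i, 0 ≤ v i + d i) (m : ℝ) {F F' : ℝ → E → ℝ}
    (hF : ∀ s ∈ Set.Icc (0 : ℝ) 1, RegF (F s)) (hF' : ∀ t ∈ Set.Icc (0 : ℝ) 1, ∀ k, BRegN k (F' t)) (h : TshU F F') :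
    TshU (fun θ => tstT (ghStd ι) (tshA φ (fun i => v i + θ * d i)) m (F θ))
      (fun θ => tstE (ghStd ι) (tshA φ (fun i => v i + θ * d i)) m (F θ) (fun y => F' θ y + tshHd φ d m (F θ) y)) := by
  intro t ht
  obtain ⟨C₀, hC₀⟩ := h t ht
  set cp : ι → ℝ := fun i => max (d i) 0 with hcp
  set cm : ι → ℝ := fun i => max (-d i) 0 with hcm
  have hcp0 : ∀ i, 0 ≤ cp i := fun i => le_max_right _ _
  have hcm0 : ∀ i, 0 ≤ cm i := fun i => le_max_right _ _
  obtain ⟨Ca, hCa⟩ := tsh_step_T (tsh_A_noise φ cp) (tsh_A_centred φ cp) (tsh_A_noise φ cm) (tsh_A_centred φ cm)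
    (hF t ht) m (hF' t ht) (tsh_Hd_bReg φ d m (hF t ht)) C₀
  obtain ⟨Cb, hCb⟩ := tsh_step_T (tsh_A_noise φ cm) (tsh_A_centred φ cm) (tsh_A_noise φ cp) (tsh_A_centred φ cp)
    (hF t ht) m (hF' t ht) (tsh_Hd_bReg φ d m (hF t ht)) C₀
  refine ⟨max Ca Cb, fun s hs z => ?_⟩
  set ε := Real.sqrt |s - t| with hε
  have hε0 : 0 ≤ ε := Real.sqrt_nonneg _
  have hr1 : |s - t| ≤ 1 := by rw [abs_le]; constructor <;> linarith [hs.1, hs.2, ht.1, ht.2]
  have hε1 : ε ≤ 1 := by rw [hε]; exact Real.sqrt_le_one.2 hr1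
  have hr : |s - t| = ε ^ 2 := (Real.sq_sqrt (abs_nonneg _)).symm
  have hε3 : 0 ≤ ε ^ 3 := by positivity
  set u : ι → ℝ := fun i => min (v i + s * d i) (v i + t * d i) with hu
  have hu0 : ∀ i, 0 ≤ u i := fun i => le_min (tsh_seg_nonneg (hv i) (hvd i) hs) (tsh_seg_nonneg (hv i) (hvd i) ht)
  have hdiff : ∀ y, tshH (ghStd ι) (tshA φ cp) m (F t) y - tshH (ghStd ι) (tshA φ cm) m (F t) y = 2 * tshHd φ d m (F t) y := by
    intro y
    rw [tsh_A_H φ cp hcp0, tsh_A_H φ cm hcm0, ← Finset.sum_sub_distrib]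
    unfold tshHd
    rw [← mul_assoc, show (2 : ℝ) * (1 / 2) = 1 by norm_num, one_mul]
    refine Finset.sum_congr rfl fun i _ => ?_
    rw [← sub_mul, hcp, hcm]
    simp only [max_zero_sub_max_neg_zero_eq_self]
  rcases le_total 0 (s - t) with h0 | h0
  · have hε2 : ε ^ 2 = s - t := by rw [← hr, abs_of_nonneg h0]
    have es : (fun i => v i + s * d i) = fun i => u i + ε ^ 2 * cp i := by
      funext i; rw [hε2]; exact (tsh_split_pos h0).1
    have et : (fun i => v i + t * d i) = fun i => u i + ε ^ 2 * cm i := by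
      funext i; rw [hε2]; exact (tsh_split_pos h0).2
    have cs : TshConv (ghStd ι) (tshA φ (fun i => v i + s * d i)) (tshA φ u) (fun ω => ε • tshA φ cp ω) := by
      rw [es, ← tsh_A_scale φ cp hε0]
      exact tsh_conv φ u _ hu0 fun i => mul_nonneg (sq_nonneg ε) (hcp0 i)
    have ct : TshConv (ghStd ι) (tshA φ (fun i => v i + t * d i)) (tshA φ u) (fun ω => ε • tshA φ cm ω) := by
      rw [et, ← tsh_A_scale φ cm hε0]
      exact tsh_conv φ u _ hu0 fun i => mul_nonneg (sq_nonneg ε) (hcm0 i)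
    have := hCa ε (s - t) hε0 hε1 hr (fun y => by rw [hdiff, hε2]; ring) (tshA φ u) _ _ (tsh_A_noise φ u) cs ct (F s)
      (hF s hs) (hC₀ s hs) z
    exact this.trans (mul_le_mul_of_nonneg_right (le_max_left _ _) hε3)
  · have h0' : 0 ≤ t - s := by linarith
    have hε2 : ε ^ 2 = t - s := by rw [← hr, abs_of_nonpos h0]; ring
    have es : (fun i => v i + s * d i) = fun i => u i + ε ^ 2 * cm i := by
      funext i; rw [hε2, hu]; simp only; rw [min_comm]; exact (tsh_split_pos h0').2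
    have et : (fun i => v i + t * d i) = fun i => u i + ε ^ 2 * cp i := by
      funext i; rw [hε2, hu]; simp only; rw [min_comm]; exact (tsh_split_pos h0').1
    have cs : TshConv (ghStd ι) (tshA φ (fun i => v i + s * d i)) (tshA φ u) (fun ω => ε • tshA φ cm ω) := by
      rw [es, ← tsh_A_scale φ cm hε0]
      exact tsh_conv φ u _ hu0 fun i => mul_nonneg (sq_nonneg ε) (hcm0 i)
    have ct : TshConv (ghStd ι) (tshA φ (fun i => v i + t * d i)) (tshA φ u) (fun ω => ε • tshA φ cp ω) := by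
      rw [et, ← tsh_A_scale φ cp hε0]
      exact tsh_conv φ u _ hu0 fun i => mul_nonneg (sq_nonneg ε) (hcp0 i)
    have := hCb ε (s - t) hε0 hε1 hr (fun y => by
      have := hdiff y
      have e : tshH (ghStd ι) (tshA φ cm) m (F t) y - tshH (ghStd ι) (tshA φ cp) m (F t) y = -(2 * tshHd φ d m (F t) y) := by
        linarith
      rw [e, hε2]; ring) (tshA φ u) _ _ (tsh_A_noise φ u) cs ct (F s) (hF s hs) (hC₀ s hs) z
    exact this.trans (mul_le_mul_of_nonneg_right (le_max_right _ _) hε3)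

end

end Claimed.Agent.R286
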